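import Claimed.Agent.R316.S7.SC.UB
import Claimed.Agent.R316.Pack016
import Claimed.Agent.R316.Pack004
import Claimed.Agent.R316.CW.MatAlg

/-!
# Row 316, BP-S7-5 (sub-captain helper267): Proposition 7.5 (simple connectivity).  Definitions and plan

GOAL (`S7/SC/Main.lean`): `st75 : St75 D`.  charts.tex l.671-814, RE-DERIVED so that NO limit flow, NO Arzela-Ascoli, NO geodesics, NO gradient flow, NO injectivity radius and NO
approximation of continuous loops is needed.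

PLAN.
* Part A (analysis in the immersed charts `Φ_i` of `UniformCharts` along the times `t_i` of `Windows`; files `UB, Slice, Ident, AlmostMin, Alg, Test, Center, Rescale`).
  `H_i(z, w) = λ_i h_{t_i + z/λ_i}(Φ_i w)`, `λ_i = R(o, t_i)`, `q_i = t_i λ_i`; `A = Ric = - levi log det H`, `R̂ = tr (H⁻¹ A)`, `S = R̂_z + R̂ / (q + z)`.
  The family `(H_i)` is an `IsWin` (below).  Only `H_z = - A` is used (no Kaehler identity, no normal coordinates):
  `A_z = levi R̂ =: L`, `R̂_z = tr (H⁻¹ A H⁻¹ A) + tr (H⁻¹ L)`, and at the centre (`H = 1`, `k = 1/q`)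
  `(∂_z - Δ) S = 2 tr A³ + 3 tr (A L) + k tr A² - k² tr A`,  `S = tr M`, `M = L + A² + k A ≥ 0` (matrix Harnack).
  `S_i(0,0) → 0` (Windows).  The scalar Harnack expression is `≥ 0` on the whole window and equals `S_i(0,0) → 0` at the centre, with uniformly bounded derivatives; the "almost minimum lemma"
  (`AlmostMin.lean`) along the time line gives `∂_z S → 0`, and along the real line `s ↦ (0, s v)` with the test vector `X = s Y`:
  `D²S(v,v) + 4 Re ∑ Y_k D_v ∂_k R̂ + 2 Yᴴ A Y ≥ - o(1)`.  With `Y = - A⁻¹ conj (D_v ∂R̂)` and `v = e_p, i e_p` summed: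
  `Δ S ≥ tr (L A⁻¹ L) + ∑_p |∂_p ∂ R̂|²_{A⁻¹} - o(1)`.  The algebraic identity `(∂_z - Δ) S + tr (L A⁻¹ L) = tr (A M) - 2 k tr M + tr (M A⁻¹ M) ≥ - 2 k tr M` then gives
  `∑ |∂_p ∂_k R̂|² → 0` (PLAIN second derivatives).  So the Euclidean real Hessian of `f_i = R̂_i(0, ·)` at `0` is `≤ 2 (M - A² - k A) + o(1) ≤ (- 2 b² + o(1))`, and by the uniform third derivative bound
  `D² f_i ≤ - b²` on a fixed ball `|w| < r'`; also `|D f_i(0)| → 0` (scalar Harnack at the centre with `X = - t conj ∂R̂`).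
* Part T (files `Lift, Inj, Topo`).  `f = u ∘ Φ` strictly concave on the ball has exactly one critical point `z*`, close to `0`.  Being critical is intrinsic.  If `Φ w₁ = Φ w₂`, lift the curve
  `Φ ∘ [w₁, z*]` from `w₂`: the lift ends at a critical point, i.e. at `z*`; uniqueness of lifts (backwards) gives `w₁ = w₂`.  So `Φ_i` is INJECTIVE on a ball of fixed radius `ρ`.
  Lifting curves of length `< √c ρ` from `0` gives `B_{g_i}(o, √c ρ) ⊆ Φ_i (ball 0 ρ)`.
* Part L (file `Small`).  Every compact set lies in `B_{g_i}(o, ε)` for large `i` (`Harnack.power`, `R_o_le`).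
* So every compact subset of `M` lies in the homeomorphic image of a compact convex set; `Topo.lean`: such a path connected space is simply connected.

This file: the definitions, then section `slice` (leaf L-S7-5-2) and section `alg` (leaf L-S7-5-5).
-/

set_option autoImplicit false
set_option linter.unusedSectionVars false
open scoped ContDiff ComplexOrder ComplexConjugate Topology Matrix

namespace Claimed.Agent.R316.SC

section defs

variable {ι : Type} [Fintype ι] [DecidableEq ι]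

/-- the space-time window `|z| < δ`, `|w| < r`. -/
def dom (δ r : ℝ) : Set (ℝ × CE ι) := Set.Ioo (-δ) δ ×ˢ Metric.ball (0 : CE ι) r

section quantities

variable (H : ℝ × CE ι → Matrix ι ι ℂ)

/-- `log det H`. -/
noncomputable def lgd (p : ℝ × CE ι) : ℝ := Real.log (H p).det.re

/-- the Ricci matrix `A = - levi (log det H)` (space derivatives only). -/
noncomputable def ricM (p : ℝ × CE ι) : Matrix ι ι ℂ := - levi (fun y => lgd H (p.1, y)) p.2

/-- `A_z`, entrywise. -/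
noncomputable def ricT (p : ℝ × CE ι) : Matrix ι ι ℂ :=
  fun j l => deriv (fun s => ricM H (s, p.2) j l) p.1

/-- the scalar curvature `R̂ = tr (H⁻¹ A)`. -/
noncomputable def scl (p : ℝ × CE ι) : ℝ := ((H p)⁻¹ * ricM H p).trace.re

/-- `R̂_z`. -/
noncomputable def sclT (p : ℝ × CE ι) : ℝ := deriv (fun s => scl H (s, p.2)) p.1

/-- the trace Harnack quantity `S = R̂_z + R̂ / (q + z)`. -/
noncomputable def Sq (q : ℝ) (p : ℝ × CE ι) : ℝ := sclT H p + scl H p / (q + p.1)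

/-- `∂_k R̂`. -/
noncomputable def dscl (k : ι) (p : ℝ × CE ι) : ℂ :=
  dz k (fun w => ((scl H (p.1, w) : ℝ) : ℂ)) p.2

/-- the mixed Hessian `L = levi R̂`, `L j k = ∂_{\bar j} ∂_k R̂`. -/
noncomputable def hesM (p : ℝ × CE ι) : Matrix ι ι ℂ := levi (fun y => scl H (p.1, y)) p.2

/-- the pure Hessian `B j k = ∂_j ∂_k R̂` (plain partial derivatives). -/
noncomputable def hesP (p : ℝ × CE ι) : Matrix ι ι ℂ :=
  fun j k => dz j (fun w => dscl H k (p.1, w)) p.2

end quantities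

/-- A family of rescaled flow windows with uniform bounds.  `H i (z, w)` is the rescaled metric in the `i`-th chart, `q i = t_i R(o, t_i)`. -/
structure IsWin {I : Type} (δ r c C b : ℝ) (H : I → ℝ × CE ι → Matrix ι ι ℂ) (q : I → ℝ) : Prop where
  δ_pos : 0 < δ
  r_pos : 0 < r
  c_pos : 0 < c
  b_pos : 0 < b
  /-- uniform bounds of all space-time derivatives -/
  ub : ∀ j l, UB (dom δ r) (fun i p => H i p j l)
  lower : ∀ i, ∀ p ∈ dom (ι := ι) δ r, leM (cI c) (H i p)
  upper : ∀ i, ∀ p ∈ dom (ι := ι) δ r, leM (H i p) (cI C)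
  /-- the flow equation `H_z = - A` -/
  flow : ∀ i, ∀ p ∈ dom (ι := ι) δ r, ∀ j l,
    HasDerivAt (fun s => H i (s, p.2) j l) (- ricM (H i) p j l) p.1
  q_gt : ∀ i, 2 * δ < q i
  /-- the scalar Harnack inequality on the whole window -/
  scalar : ∀ i, ∀ p ∈ dom (ι := ι) δ r, ∀ X : ι → ℂ,
    0 ≤ Sq (H i) (q i) p + 2 * (∑ k, X k * dscl (H i) k p).re + qf (ricM (H i) p) X
  /-- unitary centre -/
  center : ∀ i, H i (0, 0) = 1
  /-- the matrix Harnack inequality at the centre -/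
  matrix : ∀ i, (ricT (H i) (0, 0) + ricM (H i) (0, 0) * ricM (H i) (0, 0)
    + (((q i)⁻¹ : ℝ) : ℂ) • ricM (H i) (0, 0)).PosSemidef
  /-- lower Ricci bound at the centre -/
  ric_lower : ∀ i, leM (cI b) (ricM (H i) (0, 0))

theorem isOpen_dom (δ r : ℝ) : IsOpen (dom (ι := ι) δ r) := isOpen_Ioo.prod Metric.isOpen_ball

theorem convex_dom (δ r : ℝ) : Convex ℝ (dom (ι := ι) δ r) :=
  (convex_Ioo _ _).prod (convex_ball _ _)

theorem zero_mem_dom {δ r : ℝ} (hδ : 0 < δ) (hr : 0 < r) : ((0, 0) : ℝ × CE ι) ∈ dom (ι := ι) δ r :=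
  ⟨⟨by linarith, hδ⟩, Metric.mem_ball_self hr⟩

theorem isBounded_dom (δ r : ℝ) : Bornology.IsBounded (dom (ι := ι) δ r) :=
  (Metric.isBounded_Ioo _ _).prod Metric.isBounded_ball

end defs

/-!
## Section `slice`, leaf L-S7-5-2: uniform bounds for partial derivatives and for the curvature quantities of an `IsWin` (~700 lines)

PROVED (helper11); auxiliary lemmas: prefix `sl_`.  `S7/SC/UB.lean` may be used as it stands.

PART 1 (partial derivatives of a jointly smooth function on the OPEN set `dom δ r`).  For `p ∈ dom δ r` and `F` differentiable at `p`: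
`fderiv ℝ (fun w => F (p.1, w)) p.2 a = fderiv ℝ F p (0, a)` and `deriv (fun s => F (s, p.2)) p.1 = fderiv ℝ F p (1, 0)` (`HasFDerivAt.comp` with the affine maps `w ↦ (p.1, w)`, `s ↦ (s, p.2)`).
So `dz l`, `dzb l` of the slice are fixed complex combinations of `UB.fd_apply` (`a = eb l`, `a = I • eb l`); use `UB.congr`, `UB.clm`/`UB.mul` with `ub_const`.  `levi` = `dzb j` of `dz k` of `ofReal ∘ F`
(`UB.clm` with `Complex.ofRealCLM`); note that the inner function `p ↦ dz k (fun y => F (p.1, y)) p.2` has the slices `w ↦ dz k (fun y => F (z, y)) w`, definitionally.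
`slice0`, `line`, `timeline`: `UB.comp_affine`.
PART 2.  `det`: `Matrix.det_apply`, `UB.sum`, `UB.prod`, constants.  For `p ∈ dom`: `H i p` is Hermitian with `c ≤ H ≤ C`, so `c ^ n ≤ (det H).re ≤ C ^ n` and `(det H).im = 0`
(`pow_mul_det_le`, `det_le_pow_mul`, `det_im_of_isHermitian`, or through the eigenvalues); the values of `det` lie in the compact set `S = {ζ | ζ.im = 0 ∧ ζ.re ∈ Icc (c^n) (C^n)} ⊆ {0}ᶜ`:
`UB.comp_compact` with `Inv.inv` on `{0}ᶜ`; `H⁻¹ = det⁻¹ • adjugate` (`Matrix.inv_def`, `Ring.inverse_eq_inv'`), adjugate entries are determinants of updated matrices (`Matrix.adjugate_apply`, `Matrix.det_apply`) hence `UB`.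
`lgd`: `UB.comp_compact` with `Real.log` on `Ioi 0` and `S = Icc (c^n) (C^n)`.  `ricM`: `levi_slice`, `UB.neg`.  `scl`: `Matrix.trace`, `Matrix.mul_apply`, `UB.sum`, `UB.mul`, `Complex.reCLM`.
`kq`: `1 / (q + z) = κ / (1 + κ z)` with `κ = 1/q ∈ [0, 1/(2δ)]`: `UB.comp_compact` for `γ (κ, z) = κ / (1 + κ z)` on the open set `{1 + κ z > 0}` and the compact `Icc 0 (1/(2δ)) ×ˢ Icc (-δ) δ`
(`UB.prodMk`, `ub_const`, `ub_clm`).
-/

section slice

variable {ι : Type} [Fintype ι] [DecidableEq ι] {I : Type} {δ r : ℝ}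

/-! ### Part 1: slices -/

section slices

variable {G : Type} [NormedAddCommGroup G] [NormedSpace ℝ G]

theorem fderiv_slice {F : ℝ × CE ι → G} {p : ℝ × CE ι} (hF : DifferentiableAt ℝ F p) (a : CE ι) :
    fderiv ℝ (fun w => F (p.1, w)) p.2 a = fderiv ℝ F p (0, a) := by
  have h : HasFDerivAt (fun w => F (p.1, w))
      ((fderiv ℝ F p).comp (ContinuousLinearMap.inr ℝ ℝ (CE ι))) p.2 :=
    HasFDerivAt.comp (g := F) p.2 hF.hasFDerivAt (hasFDerivAt_prodMk_right p.1 p.2)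
  rw [h.fderiv]
  rfl

theorem deriv_slice {F : ℝ × CE ι → G} {p : ℝ × CE ι} (hF : DifferentiableAt ℝ F p) :
    deriv (fun s => F (s, p.2)) p.1 = fderiv ℝ F p (1, 0) := by
  have h : HasDerivAt (fun s => F (s, p.2)) (fderiv ℝ F p (1, 0)) p.1 :=
    HasFDerivAt.comp_hasDerivAt (l := F) p.1 hF.hasFDerivAt
      ((hasDerivAt_id p.1).prodMk (hasDerivAt_const p.1 p.2))
  exact h.deriv

theorem UB.dt_slice {F : I → ℝ × CE ι → G} (h : UB (dom δ r) F) :
    UB (dom δ r) (fun i p => deriv (fun s => F i (s, p.2)) p.1) := by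
  refine (h.fd_apply (isOpen_dom δ r) (1, 0)).congr (isOpen_dom δ r) fun i p hp => ?_
  exact deriv_slice ((h.contDiffAt (isOpen_dom δ r) i hp).differentiableAt (by simp))

theorem UB.dx_slice {F : I → ℝ × CE ι → G} (h : UB (dom δ r) F) (a : CE ι) :
    UB (dom δ r) (fun i p => fderiv ℝ (fun w => F i (p.1, w)) p.2 a) := by
  refine (h.fd_apply (isOpen_dom δ r) (0, a)).congr (isOpen_dom δ r) fun i p hp => ?_
  exact fderiv_slice ((h.contDiffAt (isOpen_dom δ r) i hp).differentiableAt (by simp)) a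

theorem UB.dz_slice {F : I → ℝ × CE ι → ℂ} (h : UB (dom δ r) F) (l : ι) :
    UB (dom δ r) (fun i p => dz l (fun w => F i (p.1, w)) p.2) := by
  have hO := isOpen_dom (ι := ι) δ r
  exact (ub_const (c := fun _ : I => (1 / 2 : ℂ)) ⟨_, fun _ => le_rfl⟩).mul hO
    ((h.dx_slice (eb l)).sub hO
      ((ub_const (c := fun _ : I => Complex.I) ⟨_, fun _ => le_rfl⟩).mul hO
        (h.dx_slice (Complex.I • eb l))))

theorem UB.dzb_slice {F : I → ℝ × CE ι → ℂ} (h : UB (dom δ r) F) (l : ι) :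
    UB (dom δ r) (fun i p => dzb l (fun w => F i (p.1, w)) p.2) := by
  have hO := isOpen_dom (ι := ι) δ r
  exact (ub_const (c := fun _ : I => (1 / 2 : ℂ)) ⟨_, fun _ => le_rfl⟩).mul hO
    ((h.dx_slice (eb l)).add hO
      ((ub_const (c := fun _ : I => Complex.I) ⟨_, fun _ => le_rfl⟩).mul hO
        (h.dx_slice (Complex.I • eb l))))

theorem UB.levi_slice {F : I → ℝ × CE ι → ℝ} (h : UB (dom δ r) F) (j k : ι) :
    UB (dom δ r) (fun i p => levi (fun w => F i (p.1, w)) p.2 j k) := by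
  have hO := isOpen_dom (ι := ι) δ r
  exact ((h.clm hO Complex.ofRealCLM).dz_slice k).dzb_slice j

/-- the slice at time `0`. -/
theorem UB.slice0 {F : I → ℝ × CE ι → G} (hδ : 0 < δ) (h : UB (dom δ r) F) :
    UB (Metric.ball (0 : CE ι) r) (fun i w => F i (0, w)) := by
  have h1 := h.comp_affine (isOpen_dom δ r) (O' := Metric.ball (0 : CE ι) r) Metric.isOpen_ball
    (ContinuousLinearMap.inr ℝ ℝ (CE ι)) 0 (fun x hx => by
      simp only [zero_add, ContinuousLinearMap.inr_apply]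
      exact ⟨⟨by linarith, hδ⟩, hx⟩)
  refine h1.congr Metric.isOpen_ball fun i w _ => ?_
  simp

/-- a real line through the centre at time `0`. -/
theorem UB.line {F : I → ℝ × CE ι → G} (hδ : 0 < δ) (h : UB (dom δ r) F) {v : CE ι}
    (hv : ‖v‖ ≤ 1) : UB (Set.Ioo (-r) r) (fun i s => F i (0, s • v)) := by
  have h1 := h.comp_affine (isOpen_dom δ r) (O' := Set.Ioo (-r) r) isOpen_Ioo
    (ContinuousLinearMap.toSpanSingleton ℝ ((0 : ℝ), v)) 0 (fun s hs => by
      simp only [zero_add, ContinuousLinearMap.toSpanSingleton_apply, Prod.smul_mk, smul_zero]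
      refine ⟨⟨by linarith, hδ⟩, ?_⟩
      rw [mem_ball_zero_iff, norm_smul, Real.norm_eq_abs]
      have h2 : |s| < r := abs_lt.2 hs
      calc |s| * ‖v‖ ≤ |s| * 1 := mul_le_mul_of_nonneg_left hv (abs_nonneg _)
        _ < r := by rwa [mul_one])
  refine h1.congr isOpen_Ioo fun i s _ => ?_
  simp

/-- the time line through the centre. -/
theorem UB.timeline {F : I → ℝ × CE ι → G} (hr : 0 < r) (h : UB (dom δ r) F) :
    UB (Set.Ioo (-δ) δ) (fun i s => F i (s, 0)) := by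
  have h1 := h.comp_affine (isOpen_dom δ r) (O' := Set.Ioo (-δ) δ) isOpen_Ioo
    (ContinuousLinearMap.inl ℝ ℝ (CE ι)) 0 (fun s hs => by
      simp only [zero_add, ContinuousLinearMap.inl_apply]
      exact ⟨hs, Metric.mem_ball_self hr⟩)
  refine h1.congr isOpen_Ioo fun i s _ => ?_
  simp

end slices

/-! ### Part 2: the curvature quantities -/

section win

variable {c C b : ℝ} {H : I → ℝ × CE ι → Matrix ι ι ℂ} {q : I → ℝ}

/-- determinants of a family with `UB` entries. -/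
theorem sl_ub_det {E : Type} [NormedAddCommGroup E] [NormedSpace ℝ E] {O : Set E} (hO : IsOpen O)
    {M : I → E → Matrix ι ι ℂ} (h : ∀ j l, UB O (fun i p => M i p j l)) :
    UB O (fun i p => (M i p).det) := by
  simp only [Matrix.det_apply']
  refine UB.sum hO Finset.univ fun σ _ => ?_
  exact (ub_const (c := fun _ : I => ((Equiv.Perm.sign σ : ℤ) : ℂ)) ⟨_, fun _ => le_rfl⟩).mul hO
    (UB.prod hO Finset.univ fun a _ => h (σ a) a)

theorem sl_ub_adjugate {E : Type} [NormedAddCommGroup E] [NormedSpace ℝ E] {O : Set E}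
    (hO : IsOpen O) {M : I → E → Matrix ι ι ℂ} (h : ∀ j l, UB O (fun i p => M i p j l)) (j l : ι) :
    UB O (fun i p => (M i p).adjugate j l) := by
  simp only [Matrix.adjugate_apply]
  refine sl_ub_det hO fun a b => ?_
  simp only [Matrix.updateRow_apply]
  by_cases hal : a = l
  · simp only [hal, if_true]
    exact ub_const ⟨_, fun _ => le_rfl⟩
  · simp only [hal, if_false]
    exact h a b

theorem IsWin.posDef (W : IsWin δ r c C b H q) (i : I) {p : ℝ × CE ι} (hp : p ∈ dom δ r) :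
    (H i p).PosDef := by
  exact posDef_of_loewner (posDef_smul_real W.c_pos Matrix.PosDef.one) (W.lower i p hp)

theorem IsWin.ub_det (W : IsWin δ r c C b H q) : UB (dom δ r) (fun i p => (H i p).det) := by
  exact sl_ub_det (isOpen_dom δ r) W.ub

theorem IsWin.det_mem (W : IsWin δ r c C b H q) (i : I) {p : ℝ × CE ι} (hp : p ∈ dom δ r) :
    (H i p).det.re ∈ Set.Icc (c ^ Fintype.card ι) (C ^ Fintype.card ι) := by
  have h1 := pow_mul_det_le W.c_pos.le (Matrix.PosDef.one (n := ι) (R := ℂ)) (W.lower i p hp)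
  have h2 := det_le_pow_mul (c := C) (Matrix.PosDef.one (n := ι) (R := ℂ))
    (W.posDef i hp).posSemidef (W.upper i p hp)
  simp only [Matrix.det_one, Complex.one_re, mul_one] at h1 h2
  exact ⟨h1, h2⟩

theorem IsWin.ub_det_re (W : IsWin δ r c C b H q) : UB (dom δ r) (fun i p => (H i p).det.re) :=
  W.ub_det.clm (isOpen_dom δ r) Complex.reCLM

theorem IsWin.ub_det_re_inv (W : IsWin δ r c C b H q) :
    UB (dom δ r) (fun i p => ((H i p).det.re)⁻¹) := by
  have hc : 0 < c ^ Fintype.card ι := pow_pos W.c_pos _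
  refine UB.comp_compact (isOpen_dom δ r) (U := Set.Ioi (0 : ℝ))
    (S := Set.Icc (c ^ Fintype.card ι) (C ^ Fintype.card ι)) (γ := fun y : ℝ => y⁻¹) isOpen_Ioi
    ?_ isCompact_Icc (fun y hy => hc.trans_le hy.1) W.ub_det_re (fun i p hp => W.det_mem i hp)
  exact contDiffOn_id.inv fun y hy => (ne_of_gt hy)

theorem IsWin.ub_inv (W : IsWin δ r c C b H q) (j l : ι) :
    UB (dom δ r) (fun i p => (H i p)⁻¹ j l) := by
  have hO := isOpen_dom (ι := ι) δ r
  have h1 := (W.ub_det_re_inv.clm hO Complex.ofRealCLM).mul hO (sl_ub_adjugate hO W.ub j l)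
  refine h1.congr hO fun i p hp => ?_
  have hd : (H i p).det = (((H i p).det.re : ℝ) : ℂ) :=
    (ofReal_det_re_of_posDef (W.posDef i hp)).symm
  rw [Matrix.inv_def, Matrix.smul_apply, Ring.inverse_eq_inv', smul_eq_mul]
  conv_lhs => rw [hd]
  simp

theorem IsWin.ub_lgd (W : IsWin δ r c C b H q) : UB (dom δ r) (fun i p => lgd (H i) p) := by
  have hc : 0 < c ^ Fintype.card ι := pow_pos W.c_pos _
  refine UB.comp_compact (isOpen_dom δ r) (U := Set.Ioi (0 : ℝ))
    (S := Set.Icc (c ^ Fintype.card ι) (C ^ Fintype.card ι)) (γ := Real.log) isOpen_Ioi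
    ?_ isCompact_Icc (fun y hy => hc.trans_le hy.1) W.ub_det_re (fun i p hp => W.det_mem i hp)
  exact contDiffOn_id.log fun y hy => (ne_of_gt hy)

theorem IsWin.ub_ric (W : IsWin δ r c C b H q) (j l : ι) :
    UB (dom δ r) (fun i p => ricM (H i) p j l) := by
  exact (W.ub_lgd.levi_slice j l).neg (isOpen_dom δ r)

theorem IsWin.ub_scl (W : IsWin δ r c C b H q) : UB (dom δ r) (fun i p => scl (H i) p) := by
  have hO := isOpen_dom (ι := ι) δ r
  have h1 : UB (dom δ r) (fun i p => ∑ a, ∑ e, (H i p)⁻¹ a e * ricM (H i) p e a) :=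
    UB.sum hO Finset.univ fun a _ => UB.sum hO Finset.univ fun e _ =>
      (W.ub_inv a e).mul hO (W.ub_ric e a)
  exact h1.clm hO Complex.reCLM

theorem IsWin.ub_sclT (W : IsWin δ r c C b H q) : UB (dom δ r) (fun i p => sclT (H i) p) := by
  exact W.ub_scl.dt_slice

/-- the factor `1 / (q + z)`. -/
theorem IsWin.ub_kq (W : IsWin δ r c C b H q) :
    UB (dom (ι := ι) δ r) (fun i p => (q i + p.1)⁻¹) := by
  have hO := isOpen_dom (ι := ι) δ r
  have hδ := W.δ_pos
  have hq : ∀ i, 0 < q i := fun i => by linarith [W.q_gt i]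
  have hκ : ∀ i, (q i)⁻¹ ∈ Set.Icc 0 ((2 * δ)⁻¹) := fun i =>
    ⟨(inv_pos.2 (hq i)).le, inv_anti₀ (by positivity) (W.q_gt i).le⟩
  have hin : UB (dom (ι := ι) δ r) (fun i p => ((q i)⁻¹, p.1)) := by
    refine UB.prodMk hO (ub_const ⟨(2 * δ)⁻¹, fun i => ?_⟩)
      (ub_clm (ContinuousLinearMap.fst ℝ ℝ (CE ι)) (isBounded_dom δ r))
    rw [Real.norm_of_nonneg (hκ i).1]
    exact (hκ i).2
  have hUo : IsOpen {y : ℝ × ℝ | 0 < 1 + y.1 * y.2} :=
    isOpen_lt continuous_const (by fun_prop)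
  have hpos : ∀ y ∈ Set.Icc (0 : ℝ) ((2 * δ)⁻¹) ×ˢ Set.Icc (-δ) δ, 0 < 1 + y.1 * y.2 := by
    rintro ⟨κ, z⟩ ⟨hκ', hz⟩
    simp only at hκ' hz ⊢
    have h1 : κ * δ ≤ (2 * δ)⁻¹ * δ := mul_le_mul_of_nonneg_right hκ'.2 hδ.le
    have h2 : (2 * δ)⁻¹ * δ = 1 / 2 := by field_simp
    have h3 : κ * (-δ) ≤ κ * z := mul_le_mul_of_nonneg_left hz.1 hκ'.1
    nlinarith
  have h1 := UB.comp_compact hO (U := {y : ℝ × ℝ | 0 < 1 + y.1 * y.2})
    (S := Set.Icc (0 : ℝ) ((2 * δ)⁻¹) ×ˢ Set.Icc (-δ) δ)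
    (γ := fun y : ℝ × ℝ => y.1 / (1 + y.1 * y.2)) hUo
    (ContDiffOn.div contDiffOn_fst (contDiffOn_const.add (contDiffOn_fst.mul contDiffOn_snd))
      fun y hy => ne_of_gt hy)
    (isCompact_Icc.prod isCompact_Icc) hpos hin
    (fun i p hp => ⟨hκ i, ⟨hp.1.1.le, hp.1.2.le⟩⟩)
  refine h1.congr hO fun i p hp => ?_
  have hqi := hq i
  have hqp : 0 < q i + p.1 := by linarith [W.q_gt i, hp.1.1]
  simp only
  field_simp

theorem IsWin.ub_Sq (W : IsWin δ r c C b H q) : UB (dom δ r) (fun i p => Sq (H i) (q i) p) := by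
  have hO := isOpen_dom (ι := ι) δ r
  exact W.ub_sclT.add hO (W.ub_scl.mul hO W.ub_kq)

theorem IsWin.ub_dscl (W : IsWin δ r c C b H q) (k : ι) :
    UB (dom δ r) (fun i p => dscl (H i) k p) := by
  exact (W.ub_scl.clm (isOpen_dom δ r) Complex.ofRealCLM).dz_slice k

theorem IsWin.ub_hesM (W : IsWin δ r c C b H q) (j k : ι) :
    UB (dom δ r) (fun i p => hesM (H i) p j k) := by
  exact W.ub_scl.levi_slice j k

theorem IsWin.ub_hesP (W : IsWin δ r c C b H q) (j k : ι) :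
    UB (dom δ r) (fun i p => hesP (H i) p j k) := by
  exact (W.ub_dscl k).dz_slice j

end win

end slice

/-!
## Section `alg`, leaf L-S7-5-5: matrix algebra at the centre (~400 lines, pure linear algebra)

PROVED (helper11); auxiliary lemmas: prefix `alg_`.  `CW/MatAlg.lean` (sorry free) may be used.

`A` positive definite, `M ≥ 0`, `L = M - A² - k A`.
* `alg_identity`: expand; `A⁻¹ * A = 1 = A * A⁻¹` (`Matrix.nonsing_inv_mul`, `hA.isUnit` / `hA.det_pos`); `L A⁻¹ L = M A⁻¹ M - M (A + k) - (A + k) M + A (A + k)²`; `Matrix.trace_mul_comm`, `Matrix.trace_add`, `Matrix.trace_smul`.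
  It is convenient to prove the COMPLEX trace identity first (`Matrix.trace` is linear, `noncomm_ring` after substituting `A⁻¹ * A`), then take real parts.
* `alg_lower`: `tr (A M) ≥ 0` (`trace_mul_nonneg`), `tr (M A⁻¹ M) = tr (A⁻¹ (M M)) ≥ 0` (`M M = Mᴴ M` is positive semidefinite, `hA.inv.posSemidef`).
* `alg_row`: `∑_p conj(x_p)ᴴ A⁻¹ conj(x_p)` with `x_p = L p ·`; `conj (L p k) = L k p`.
* `alg_parallelogram`: expand `qf` (`qf_add_vec`, `qf_smul_vec`), or `qf_eq_sum` and `ring`-like manipulation.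
* `alg_opt`: `Y = - A⁻¹ conj ξ`: `∑ Y_k ξ_k = - (conj ξ)ᴴ A⁻¹ (conj ξ)`, `Yᴴ A Y = (conj ξ)ᴴ A⁻¹ (conj ξ)` (`qf_inv_mulVec`).
* `alg_inv_lower`: `A ≤ Λ` ⟹ `A⁻¹ ≥ Λ⁻¹` (`loewner_inv_anti`), `qf_one`.  `alg_sq_lower`: `qf (A A) v = ‖A v‖² ≥ b² ‖v‖²` (e.g. `(A - b)² + 2 b (A - b) ≥ 0`, or diagonalise: `exists_unitary_diag`).
-/

section alg

variable {ι : Type} [Fintype ι] [DecidableEq ι]
variable {A L M : Matrix ι ι ℂ} {k : ℝ}

/-- the algebraic identity behind the equality case. -/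
theorem alg_identity (hA : A.PosDef) (hL : L = M - A * A - ((k : ℝ) : ℂ) • A) :
    2 * (A * A * A).trace.re + 3 * (A * L).trace.re + k * (A * A).trace.re - k ^ 2 * A.trace.re
      + (L * A⁻¹ * L).trace.re
    = (A * M).trace.re - 2 * k * M.trace.re + (M * A⁻¹ * M).trace.re := by
  have hAP : A * A⁻¹ = 1 := mul_inv_cancel_of_posDef hA
  have hPA : A⁻¹ * A = 1 := inv_mul_cancel_of_posDef hA
  have e1 : L * A⁻¹ = M * A⁻¹ - A - ((k : ℝ) : ℂ) • (1 : Matrix ι ι ℂ) := by
    rw [hL, sub_mul, sub_mul, Matrix.mul_assoc A A, hAP, Matrix.mul_one, Matrix.smul_mul, hAP]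
  have m1 : M * A⁻¹ * (A * A) = M * A := by
    rw [← Matrix.mul_assoc, Matrix.mul_assoc M, hPA, Matrix.mul_one]
  have m2 : M * A⁻¹ * A = M := by rw [Matrix.mul_assoc, hPA, Matrix.mul_one]
  have e2 : L * A⁻¹ * L = M * A⁻¹ * M - M * A - ((k : ℝ) : ℂ) • M - A * M + A * A * A
      + ((k : ℝ) : ℂ) • (A * A) - ((k : ℝ) : ℂ) • M + ((k : ℝ) : ℂ) • (A * A)
      + (((k : ℝ) : ℂ) * ((k : ℝ) : ℂ)) • A := by
    rw [e1]
    conv_lhs => rw [hL]
    simp only [sub_mul, mul_sub, Matrix.smul_mul, Matrix.mul_smul, Matrix.one_mul, m1, m2,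
      smul_sub, smul_smul, ← Matrix.mul_assoc]
    abel
  have e3 : A * L = A * M - A * A * A - ((k : ℝ) : ℂ) • (A * A) := by
    rw [hL]
    simp only [mul_sub, Matrix.mul_smul, ← Matrix.mul_assoc]
  rw [e2, e3]
  simp only [Matrix.trace_sub, Matrix.trace_add, Matrix.trace_smul, smul_eq_mul, Complex.sub_re,
    Complex.add_re, Complex.re_ofReal_mul, mul_assoc, Matrix.trace_mul_comm M A]
  ring

theorem alg_lower (hA : A.PosDef) (hM : M.PosSemidef) (hL : L = M - A * A - ((k : ℝ) : ℂ) • A) :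
    - (2 * k * M.trace.re) ≤
      2 * (A * A * A).trace.re + 3 * (A * L).trace.re + k * (A * A).trace.re - k ^ 2 * A.trace.re
      + (L * A⁻¹ * L).trace.re := by
  rw [alg_identity hA hL]
  have h1 := trace_mul_nonneg hA.posSemidef hM
  have h2 : 0 ≤ (M * A⁻¹ * M).trace.re := by
    have := hA.inv.posSemidef.conjTranspose_mul_mul_same M
    rw [hM.isHermitian.eq] at this
    exact posSemidef_trace_re_nonneg this
  linarith

/-- `∑_p |L_{p ·}|²_{A⁻¹} = tr (L A⁻¹ L)`. -/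
theorem alg_row (P : Matrix ι ι ℂ) (hL : L.IsHermitian) :
    ∑ p, qf P (fun k => conj (L p k)) = (L * P * L).trace.re := by
  simp only [qf_eq_sum, Matrix.trace, Matrix.diag_apply, Matrix.mul_apply, Finset.sum_mul,
    ← Complex.re_sum]
  congr 1
  refine Finset.sum_congr rfl fun p _ => ?_
  rw [Finset.sum_comm]
  refine Finset.sum_congr rfl fun j _ => Finset.sum_congr rfl fun k _ => ?_
  have h1 : conj (L p j) = L j p := hL.apply j p
  rw [Complex.conj_conj, h1]

theorem alg_parallelogram {P : Matrix ι ι ℂ} (hP : P.IsHermitian) (x y : ι → ℂ) :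
    qf P (fun k => conj (x k + y k)) + qf P (fun k => conj (Complex.I * x k - Complex.I * y k))
      = 2 * qf P (fun k => conj (x k)) + 2 * qf P (fun k => conj (y k)) := by
  have e1 : (fun k => conj (x k + y k)) = (fun k => conj (x k)) + fun k => conj (y k) := by
    funext k; simp
  have e2 : (fun k => conj (Complex.I * x k - Complex.I * y k))
      = (-Complex.I) • ((fun k => conj (x k)) + - fun k => conj (y k)) := by
    funext k
    simp only [map_sub, map_mul, Complex.conj_I, Pi.smul_apply, Pi.add_apply, Pi.neg_apply,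
      smul_eq_mul]
    ring
  rw [e1, e2, qf_smul_vec, qf_add_vec _ _ hP, qf_add_vec _ _ hP, qf_neg_vec, Matrix.mulVec_neg,
    dotProduct_neg, Complex.neg_re]
  simp only [norm_neg, Complex.norm_I, one_pow, one_mul]
  ring

/-- the optimal test vector. -/
theorem alg_opt (hA : A.PosDef) (ξ : ι → ℂ) :
    4 * (∑ k, (- (A⁻¹ *ᵥ fun l => conj (ξ l))) k * ξ k).re
      + 2 * qf A (- (A⁻¹ *ᵥ fun l => conj (ξ l))) = - (2 * qf A⁻¹ (fun l => conj (ξ l))) := by
  rw [qf_neg_vec, qf_inv_mulVec hA]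
  have e : ∑ k, (- (A⁻¹ *ᵥ fun l => conj (ξ l))) k * ξ k
      = - (star (fun l => conj (ξ l)) ⬝ᵥ (A⁻¹ *ᵥ fun l => conj (ξ l))) := by
    simp only [dotProduct, Pi.neg_apply, Pi.star_apply, Complex.star_def, Complex.conj_conj,
      neg_mul, Finset.sum_neg_distrib]
    congr 1
    exact Finset.sum_congr rfl fun k _ => mul_comm _ _
  rw [e, Complex.neg_re, ← qf_def]
  ring

theorem alg_inv_lower (hA : A.PosDef) {Λ : ℝ} (hΛ : 0 < Λ)
    (hle : (((Λ : ℝ) : ℂ) • (1 : Matrix ι ι ℂ) - A).PosSemidef) (x : ι → ℂ) :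
    Λ⁻¹ * ∑ k, ‖x k‖ ^ 2 ≤ qf A⁻¹ x := by
  have h1 := qf_mono (loewner_inv_anti hA hle) x
  have e : (((Λ : ℝ) : ℂ) • (1 : Matrix ι ι ℂ))⁻¹ = (((Λ⁻¹ : ℝ)) : ℂ) • (1 : Matrix ι ι ℂ) := by
    apply Matrix.inv_eq_right_inv
    rw [Matrix.smul_mul, Matrix.mul_smul, Matrix.one_mul, smul_smul, ← Complex.ofReal_mul,
      mul_inv_cancel₀ hΛ.ne', Complex.ofReal_one, one_smul]
  rw [e, qf_smul, qf_one] at h1
  exact h1

/-- entries of `A⁻¹` are bounded by `1 / b`. -/
theorem alg_inv_entry {b : ℝ} (hb : 0 < b)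
    (hle : (A - ((b : ℝ) : ℂ) • (1 : Matrix ι ι ℂ)).PosSemidef) (j k : ι) : ‖A⁻¹ j k‖ ≤ b⁻¹ := by
  have hb1 : (((b : ℝ) : ℂ) • (1 : Matrix ι ι ℂ)).PosDef := posDef_smul_real hb Matrix.PosDef.one
  have hA : A.PosDef := posDef_of_loewner hb1 hle
  have h1 := loewner_inv_anti hb1 hle
  have e : (((b : ℝ) : ℂ) • (1 : Matrix ι ι ℂ))⁻¹ = (((b⁻¹ : ℝ)) : ℂ) • (1 : Matrix ι ι ℂ) := by
    apply Matrix.inv_eq_right_inv
    rw [Matrix.smul_mul, Matrix.mul_smul, Matrix.one_mul, smul_smul, ← Complex.ofReal_mul,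
      mul_inv_cancel₀ hb.ne', Complex.ofReal_one, one_smul]
  rw [e] at h1
  refine norm_entry_le_of_loewner h1 ?_ j k
  exact hA.inv.posSemidef.add (posSemidef_smul_real (inv_pos.2 hb).le Matrix.PosSemidef.one)

theorem alg_sq_lower {b : ℝ} (hb : 0 ≤ b)
    (hle : (A - ((b : ℝ) : ℂ) • (1 : Matrix ι ι ℂ)).PosSemidef) (v : ι → ℂ) :
    b ^ 2 * ∑ k, ‖v k‖ ^ 2 ≤ qf (A * A) v := by
  set D := A - ((b : ℝ) : ℂ) • (1 : Matrix ι ι ℂ) with hD
  have e : A * A = Dᴴ * D + (((2 * b : ℝ)) : ℂ) • D + (((b ^ 2 : ℝ)) : ℂ) • (1 : Matrix ι ι ℂ) := by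
    rw [hle.isHermitian.eq, hD]
    simp only [sub_mul, mul_sub, Matrix.smul_mul, Matrix.mul_smul, Matrix.one_mul, Matrix.mul_one,
      smul_sub, smul_smul]
    push_cast
    module
  rw [e, qf_add, qf_add, qf_smul, qf_smul, qf_one]
  have h1 := qf_nonneg (Matrix.posSemidef_conjTranspose_mul_self D) v
  have h2 := qf_nonneg hle v
  have h3 : 0 ≤ 2 * b * qf D v := by positivity
  linarith

theorem alg_qf_le_trace (hM : M.PosSemidef) (v : ι → ℂ) :
    qf M v ≤ M.trace.re * ∑ k, ‖v k‖ ^ 2 := by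
  have := qf_le_trace_mul (Matrix.PosDef.one (n := ι) (R := ℂ)) hM v
  rwa [inv_one, Matrix.one_mul, qf_one] at this

end alg

end Claimed.Agent.R316.SC
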