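import Claimed.Agent.R316.S7.SC.Ident

/-!
# Row 316, BP-S7-5, leaves L-S7-5-7 (section `pure`) and L-S7-5-8 (section `concave`): the Hessian of the scalar curvature (~600 + ~500 lines)

BOTH SECTIONS PROVED (helper126), sorry free; auxiliary lemmas: prefix `ctr_`.  All files of `S7/SC/` imported here and `CW/*` may be used as they stand.

Notation at the centre `(0,0)`: `A = ricM`, `L = hesM`, `B = hesP`, `k = 1/q`, `M = L + A A + k A`, `S = Sq`.

SECTION `pure`.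
* `dir_dscl`: `fderiv ℝ (dscl k (0, ·)) 0 v = ∑ p, (B p k * v p + L p k * conj (v p))` (`fderiv_eq_sum`, CW-1; `hesP`, `hesM = levi` are `dz p`, `dzb p` of `dscl k (0, ·)` by definition).
* `lap_Sq_lower`.  For `v = eb p` and `v = I • eb p` put `ξ k = fderiv ℝ (dscl k (0, ·)) 0 v` (`= B p k + L p k`, resp. `I B p k - I L p k`) and `Y i = - A⁻¹ *ᵥ conj ξ`, bounded by `alg_inv_entry` (`W.ric_lower`) and
  `(W.ub_hesP ..).bound`, `(W.ub_hesM ..).bound`.  `W.snd_test` + `alg_opt`: `D²S(v,v) ≥ 2 qf A⁻¹ (conj ξ) - ε`.  Sum over the `2 n` directions (finite intersection of eventual sets: `Filter.eventually_all`),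
  `alg_parallelogram`, `alg_row`, and `trace_re_eq_sum_qf` + `qf_levi` (`4 qf (levi S) e_p = D²S(e_p,e_p) + D²S(i e_p, i e_p)`; `(fun j => eb p j) = Pi.single p 1`).
* `tendsto_hesP`.  `T = ∂_z S - tr levi S` is given by `W.heat_Sq_center`; `alg_lower` (with `M ≥ 0`: `W.harM_posSemidef`, `tr M = S`: `W.Sq_center`) gives `T + tr (L A⁻¹ L) ≥ - 2 k S`, `0 ≤ k ≤ 1/(2δ)`.  So
  `∑_p qf A⁻¹ (conj B_p) ≤ ∂_z S + ε + 2 k S → 0` (`W.tendsto_dtSq`), and `qf A⁻¹ x ≥ Λ⁻¹ ∑ ‖x k‖²` (`alg_inv_lower`, `W.exists_ric_upper`).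

SECTION `concave`.
* `hess_center_eq`: `lv_snd` + `lv_snd_ofReal` (CW-2) for `f = scl (H i) (0, ·)`: `D²f(v,v) = 2 Re ∑ B j k v_k v_j + 2 qf L v` (`dz_dzb_comm`, `dzb (dzb F) = conj (dz (dz F))` for real `f`: `dzb_conj`/`dz_conj`).
* `hess_center`: `|∑ B j k v_k v_j| ≤ (∑ ‖B j k‖) ‖v‖²`; `qf L v = qf M v - qf (A A) v - k qf A v ≤ S ‖v‖² - b² ‖v‖²` (`alg_qf_le_trace`, `alg_sq_lower`, `qf_nonneg`); `‖v‖² = ∑ ‖v k‖²` (`EuclideanSpace.norm_sq_eq`).
* `tendsto_fderiv`: `fderiv_real_eq` (CW-1): `fderiv ℝ f 0 v = 2 Re ∑ dscl k * v k`; operator norm bound `ContinuousLinearMap.opNorm_le_bound`.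
* `concave`: `C₃` from `UB.snd_lipschitz` on `ball 0 r` (`UB.slice0`, `W.ub_scl`); `r' = min r (b² / (2 (C₃ + 1)))`; `hess_center` with `ε = b² / 2`.
-/

set_option autoImplicit false
set_option linter.unusedSectionVars false
open scoped ContDiff ComplexOrder ComplexConjugate Topology Matrix
open Filter

namespace Claimed.Agent.R316.SC

variable {ι : Type} [Fintype ι] [DecidableEq ι] {I : Type} {δ r c C b : ℝ}
variable {H : I → ℝ × CE ι → Matrix ι ι ℂ} {q : I → ℝ} {l : Filter I}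

section pure

theorem IsWin.dir_dscl (W : IsWin δ r c C b H q) (i : I) (k : ι) (v : CE ι) :
    fderiv ℝ (fun w => dscl (H i) k (0, w)) 0 v =
      ∑ p, (hesP (H i) (0, 0) p k * v p + hesM (H i) (0, 0) p k * conj (v p)) := by
  exact fderiv_eq_sum v

/-- the Ricci matrix at the centre is positive definite. -/
theorem IsWin.ctr_posDef (W : IsWin δ r c C b H q) (i : I) : (ricM (H i) (0, 0)).PosDef :=
  posDef_of_loewner (posDef_smul_real W.b_pos Matrix.PosDef.one) (W.ric_lower i)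

theorem ctr_dir_eb (W : IsWin δ r c C b H q) (i : I) (k p : ι) :
    fderiv ℝ (fun w => dscl (H i) k (0, w)) 0 (eb p)
      = hesP (H i) (0, 0) p k + hesM (H i) (0, 0) p k := by
  rw [W.dir_dscl i k (eb p), Finset.sum_eq_single p]
  · simp [eb_apply]
  · intro p' _ hp'
    simp [eb_apply, hp']
  · intro h; exact absurd (Finset.mem_univ p) h

theorem ctr_dir_I_eb (W : IsWin δ r c C b H q) (i : I) (k p : ι) :
    fderiv ℝ (fun w => dscl (H i) k (0, w)) 0 (Complex.I • eb p)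
      = Complex.I * hesP (H i) (0, 0) p k - Complex.I * hesM (H i) (0, 0) p k := by
  rw [W.dir_dscl i k (Complex.I • eb p), Finset.sum_eq_single p]
  · simp [eb_apply]
    ring
  · intro p' _ hp'
    simp [eb_apply, hp']
  · intro h; exact absurd (Finset.mem_univ p) h

/-- one direction: `D²S(v,v) ≥ 2 |conj ξ|²_{A⁻¹} - ε` with `ξ k = D_v ∂_k R̂`. -/
theorem IsWin.ctr_dir_lower (W : IsWin δ r c C b H q)
    (h0 : Tendsto (fun i => Sq (H i) (q i) (0, 0)) l (𝓝 0)) {v : CE ι} (hv : ‖v‖ ≤ 1) :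
    ∀ ε : ℝ, 0 < ε → ∀ᶠ i in l,
      2 * qf (ricM (H i) (0, 0))⁻¹
          (fun k => conj (fderiv ℝ (fun w => dscl (H i) k (0, w)) 0 v)) - ε
        ≤ fderiv ℝ (fun y => fderiv ℝ (fun w => Sq (H i) (q i) (0, w)) y v) 0 v := by
  intro ε hε
  have hb : ∀ k, ∃ K : ℝ, 0 ≤ K ∧ ∀ i, ∀ x ∈ Metric.ball (0 : CE ι) r,
      ‖fderiv ℝ (fun w => dscl (H i) k (0, w)) x‖ ≤ K := fun k =>
    ((W.ub_dscl k).slice0 W.δ_pos).bound_fderiv
  choose K hK0 hK using hb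
  have hξ : ∀ i k, ‖fderiv ℝ (fun w => dscl (H i) k (0, w)) 0 v‖ ≤ K k := fun i k =>
    calc ‖fderiv ℝ (fun w => dscl (H i) k (0, w)) 0 v‖
        ≤ ‖fderiv ℝ (fun w => dscl (H i) k (0, w)) 0‖ * ‖v‖ := ContinuousLinearMap.le_opNorm _ _
      _ ≤ K k * 1 := mul_le_mul (hK k i 0 (Metric.mem_ball_self W.r_pos)) hv (norm_nonneg _) (hK0 k)
      _ = K k := mul_one _
  have hY : ∃ K' : ℝ, ∀ i k, ‖(- ((ricM (H i) (0, 0))⁻¹ *ᵥ
      fun l => conj (fderiv ℝ (fun w => dscl (H i) l (0, w)) 0 v))) k‖ ≤ K' := by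
    refine ⟨∑ l, b⁻¹ * K l, fun i k => ?_⟩
    rw [Pi.neg_apply, norm_neg]
    show ‖∑ l, (ricM (H i) (0, 0))⁻¹ k l * conj (fderiv ℝ (fun w => dscl (H i) l (0, w)) 0 v)‖ ≤ _
    refine (norm_sum_le _ _).trans (Finset.sum_le_sum fun l _ => ?_)
    rw [norm_mul, RCLike.norm_conj]
    exact mul_le_mul (alg_inv_entry W.b_pos (W.ric_lower i) k l) (hξ i l) (norm_nonneg _)
      (inv_pos.2 W.b_pos).le
  filter_upwards [W.snd_test h0 hv hY ε hε] with i hi
  have h1 := alg_opt (W.ctr_posDef i) (fun k => fderiv ℝ (fun w => dscl (H i) k (0, w)) 0 v)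
  linarith

theorem ctr_norm_eb (p : ι) : ‖(eb p : CE ι)‖ ≤ 1 := by
  unfold eb
  simp

theorem ctr_norm_I_eb (p : ι) : ‖(Complex.I • eb p : CE ι)‖ ≤ 1 := by
  rw [norm_smul, Complex.norm_I, one_mul]
  exact ctr_norm_eb p

theorem IsWin.ctr_contDiffAt_Sq (W : IsWin δ r c C b H q) (i : I) :
    ContDiffAt ℝ 2 (fun y => Sq (H i) (q i) (0, y)) (0 : CE ι) :=
  ((W.ub_Sq.slice0 W.δ_pos).contDiffAt Metric.isOpen_ball i (Metric.mem_ball_self W.r_pos)).of_le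
    (WithTop.coe_le_coe.2 le_top)

/-- the two directions `e_p`, `i e_p` together. -/
theorem IsWin.ctr_levi_lower (W : IsWin δ r c C b H q)
    (h0 : Tendsto (fun i => Sq (H i) (q i) (0, 0)) l (𝓝 0)) (p : ι) :
    ∀ ε : ℝ, 0 < ε → ∀ᶠ i in l,
      qf (ricM (H i) (0, 0))⁻¹ (fun k => conj (hesP (H i) (0, 0) p k))
        + qf (ricM (H i) (0, 0))⁻¹ (fun k => conj (hesM (H i) (0, 0) p k)) - ε
      ≤ qf (levi (fun y => Sq (H i) (q i) (0, y)) 0) (Pi.single p 1) := by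
  intro ε hε
  filter_upwards [W.ctr_dir_lower h0 (ctr_norm_eb p) ε hε,
    W.ctr_dir_lower h0 (ctr_norm_I_eb p) ε hε] with i h1 h2
  simp only [ctr_dir_eb W i _ p] at h1
  simp only [ctr_dir_I_eb W i _ p] at h2
  have h3 := alg_parallelogram (W.ctr_posDef i).inv.isHermitian
    (fun k => hesP (H i) (0, 0) p k) (fun k => hesM (H i) (0, 0) p k)
  have h4 := qf_levi (W.ctr_contDiffAt_Sq i) (eb p)
  have e : (fun j => (eb p : CE ι) j) = Pi.single p 1 := by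
    funext j
    rw [eb_apply, Pi.single_apply]
  rw [e] at h4
  rw [h4]
  linarith

/-- `Δ S ≥ tr (L A⁻¹ L) + ∑_p |B_p|²_{A⁻¹} - o(1)` at the centre. -/
theorem IsWin.lap_Sq_lower (W : IsWin δ r c C b H q)
    (h0 : Tendsto (fun i => Sq (H i) (q i) (0, 0)) l (𝓝 0)) :
    ∀ ε : ℝ, 0 < ε → ∀ᶠ i in l,
      (hesM (H i) (0, 0) * (ricM (H i) (0, 0))⁻¹ * hesM (H i) (0, 0)).trace.re
        + ∑ p, qf (ricM (H i) (0, 0))⁻¹ (fun k => conj (hesP (H i) (0, 0) p k)) - ε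
      ≤ (levi (fun y => Sq (H i) (q i) (0, y)) 0).trace.re := by
  intro ε hε
  have hn : (0 : ℝ) < Fintype.card ι + 1 := by positivity
  have hε' : 0 < ε / (Fintype.card ι + 1) := div_pos hε hn
  have hall : ∀ᶠ i in l, ∀ p : ι,
      qf (ricM (H i) (0, 0))⁻¹ (fun k => conj (hesP (H i) (0, 0) p k))
        + qf (ricM (H i) (0, 0))⁻¹ (fun k => conj (hesM (H i) (0, 0) p k))
        - ε / (Fintype.card ι + 1)
      ≤ qf (levi (fun y => Sq (H i) (q i) (0, y)) 0) (Pi.single p 1) :=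
    Filter.eventually_all.2 fun p => W.ctr_levi_lower h0 p _ hε'
  filter_upwards [hall] with i hi
  rw [← alg_row _ (W.hesM_isHermitian i (zero_mem_dom W.δ_pos W.r_pos)),
    trace_re_eq_sum_qf (levi (fun y => Sq (H i) (q i) (0, y)) 0)]
  have h1 := Finset.sum_le_sum fun p (_ : p ∈ Finset.univ) => hi p
  rw [Finset.sum_sub_distrib, Finset.sum_add_distrib, Finset.sum_const, Finset.card_univ,
    nsmul_eq_mul] at h1
  have h2 : (Fintype.card ι : ℝ) * (ε / (Fintype.card ι + 1)) ≤ ε := by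
    rw [mul_div_assoc', div_le_iff₀ hn]
    nlinarith
  linarith

theorem IsWin.ctr_hesP_sq_le (W : IsWin δ r c C b H q)
    (h0 : Tendsto (fun i => Sq (H i) (q i) (0, 0)) l (𝓝 0)) {Λ : ℝ} (hΛ : 0 < Λ)
    (hle : ∀ i, ∀ p ∈ dom (ι := ι) δ r,
      (((Λ : ℝ) : ℂ) • (1 : Matrix ι ι ℂ) - ricM (H i) p).PosSemidef) (j k : ι) :
    ∀ ε : ℝ, 0 < ε → ∀ᶠ i in l, ‖hesP (H i) (0, 0) j k‖ ^ 2 ≤
      Λ * (deriv (fun s => Sq (H i) (q i) (s, 0)) 0 + δ⁻¹ * Sq (H i) (q i) (0, 0) + ε) := by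
  intro ε hε
  have h00 : ((0, 0) : ℝ × CE ι) ∈ dom (ι := ι) δ r := zero_mem_dom W.δ_pos W.r_pos
  filter_upwards [W.lap_Sq_lower h0 ε hε] with i hi
  have hA := W.ctr_posDef i
  have hM := W.harM_posSemidef i
  have hL : hesM (H i) (0, 0) = (hesM (H i) (0, 0) + ricM (H i) (0, 0) * ricM (H i) (0, 0)
      + (((q i)⁻¹ : ℝ) : ℂ) • ricM (H i) (0, 0)) - ricM (H i) (0, 0) * ricM (H i) (0, 0)
      - (((q i)⁻¹ : ℝ) : ℂ) • ricM (H i) (0, 0) := by abel
  have h1 := alg_lower hA hM hL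
  have h2 := W.heat_Sq_center i
  rw [← W.Sq_center i] at h1
  have h4 : Λ⁻¹ * ∑ k', ‖hesP (H i) (0, 0) j k'‖ ^ 2
      ≤ qf (ricM (H i) (0, 0))⁻¹ (fun k' => conj (hesP (H i) (0, 0) j k')) := by
    have h := alg_inv_lower hA hΛ (hle i _ h00) (fun k' => conj (hesP (H i) (0, 0) j k'))
    simpa only [RCLike.norm_conj] using h
  have h5 : Λ⁻¹ * ‖hesP (H i) (0, 0) j k‖ ^ 2
      ≤ ∑ p, qf (ricM (H i) (0, 0))⁻¹ (fun k' => conj (hesP (H i) (0, 0) p k')) :=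
    calc Λ⁻¹ * ‖hesP (H i) (0, 0) j k‖ ^ 2 ≤ Λ⁻¹ * ∑ k', ‖hesP (H i) (0, 0) j k'‖ ^ 2 :=
          mul_le_mul_of_nonneg_left
            (Finset.single_le_sum (f := fun k' => ‖hesP (H i) (0, 0) j k'‖ ^ 2)
              (fun _ _ => sq_nonneg _) (Finset.mem_univ k)) (inv_pos.2 hΛ).le
      _ ≤ _ := h4
      _ ≤ _ := Finset.single_le_sum
          (f := fun p => qf (ricM (H i) (0, 0))⁻¹ (fun k' => conj (hesP (H i) (0, 0) p k')))
          (fun p _ => qf_nonneg hA.inv.posSemidef _) (Finset.mem_univ j)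
  have hS : 0 ≤ Sq (H i) (q i) (0, 0) := W.Sq_nonneg i h00
  have hq : 0 < q i := by linarith [W.q_gt i, W.δ_pos]
  have hk : 2 * (q i)⁻¹ ≤ δ⁻¹ := by
    have h6 : (q i)⁻¹ ≤ (2 * δ)⁻¹ := inv_anti₀ (by linarith [W.δ_pos]) (W.q_gt i).le
    have h7 : (2 * δ)⁻¹ = δ⁻¹ / 2 := by rw [mul_inv]; ring
    linarith
  have hkS : 2 * (q i)⁻¹ * Sq (H i) (q i) (0, 0) ≤ δ⁻¹ * Sq (H i) (q i) (0, 0) :=
    mul_le_mul_of_nonneg_right hk hS
  have h8 : Λ⁻¹ * ‖hesP (H i) (0, 0) j k‖ ^ 2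
      ≤ deriv (fun s => Sq (H i) (q i) (s, 0)) 0 + δ⁻¹ * Sq (H i) (q i) (0, 0) + ε := by
    linarith
  have h9 := mul_le_mul_of_nonneg_left h8 hΛ.le
  rwa [← mul_assoc, mul_inv_cancel₀ hΛ.ne', one_mul] at h9

/-- the pure second derivatives of the scalar curvature tend to `0` at the centre. -/
theorem IsWin.tendsto_hesP (W : IsWin δ r c C b H q)
    (h0 : Tendsto (fun i => Sq (H i) (q i) (0, 0)) l (𝓝 0)) (j k : ι) :
    Tendsto (fun i => hesP (H i) (0, 0) j k) l (𝓝 0) := by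
  obtain ⟨Λ, hΛ, hle⟩ := W.exists_ric_upper
  rw [tendsto_zero_iff_norm_tendsto_zero, Metric.tendsto_nhds]
  intro η hη
  have hε : 0 < η ^ 2 / (2 * Λ) := by positivity
  have hG : Tendsto (fun i => Λ * (deriv (fun s => Sq (H i) (q i) (s, 0)) 0
      + δ⁻¹ * Sq (H i) (q i) (0, 0) + η ^ 2 / (2 * Λ))) l (𝓝 (Λ * (0 + δ⁻¹ * 0 + η ^ 2 / (2 * Λ)))) :=
    (((W.tendsto_dtSq h0).add (h0.const_mul _)).add_const _).const_mul _
  have e : Λ * (0 + δ⁻¹ * 0 + η ^ 2 / (2 * Λ)) = η ^ 2 / 2 := by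
    rw [mul_zero, add_zero, zero_add]
    field_simp
  rw [e] at hG
  have hlt : η ^ 2 / 2 < η ^ 2 := by
    have : 0 < η ^ 2 := by positivity
    linarith
  filter_upwards [W.ctr_hesP_sq_le h0 hΛ hle j k _ hε, hG.eventually_lt_const hlt] with i h1 h2
  rw [dist_zero_right, norm_norm]
  exact lt_of_pow_lt_pow_left₀ 2 hη.le (lt_of_le_of_lt h1 h2)

end pure

section concave

theorem IsWin.ctr_contDiffAt_scl (W : IsWin δ r c C b H q) (i : I) :
    ContDiffAt ℝ 2 (fun y => scl (H i) (0, y)) (0 : CE ι) :=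
  ((W.ub_scl.slice0 W.δ_pos).contDiffAt Metric.isOpen_ball i (Metric.mem_ball_self W.r_pos)).of_le
    (WithTop.coe_le_coe.2 le_top)

theorem IsWin.hess_center_eq (W : IsWin δ r c C b H q) (i : I) (v : CE ι) :
    fderiv ℝ (fun y => fderiv ℝ (fun w => scl (H i) (0, w)) y v) 0 v =
      2 * (∑ j, ∑ k, hesP (H i) (0, 0) j k * v k * v j).re + 2 * qf (hesM (H i) (0, 0)) v := by
  have hf := W.ctr_contDiffAt_scl i
  have hF := contDiffAt_ofReal hf
  have h1 := lv_snd hF v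
  rw [lv_snd_ofReal hf] at h1
  have eB : ∀ j k, dz j (dz k (fun y => ((scl (H i) (0, y) : ℝ) : ℂ))) 0
      = hesP (H i) (0, 0) j k := fun j k => rfl
  have eL : ∀ j k, dzb j (dz k (fun y => ((scl (H i) (0, y) : ℝ) : ℂ))) 0
      = hesM (H i) (0, 0) j k := fun j k => rfl
  have eL' : ∀ j k, dz j (dzb k (fun y => ((scl (H i) (0, y) : ℝ) : ℂ))) 0
      = hesM (H i) (0, 0) k j := fun j k => dz_dzb_comm hF
  have eB' : ∀ j k, dzb j (dzb k (fun y => ((scl (H i) (0, y) : ℝ) : ℂ))) 0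
      = conj (hesP (H i) (0, 0) j k) := fun j k => by
    have e : dzb k (fun y => ((scl (H i) (0, y) : ℝ) : ℂ))
        = fun w => conj (dz k (fun y => ((scl (H i) (0, y) : ℝ) : ℂ)) w) := by
      funext w; exact dzb_ofReal _
    rw [e, dzb_conj]
    rfl
  simp only [eB, eL, eL', eB'] at h1
  have h2 := congrArg Complex.re h1
  rw [Complex.ofReal_re] at h2
  rw [h2, qf_eq_sum]
  have e1 : ∑ j, ∑ k, (hesP (H i) (0, 0) j k * v k * v j + hesM (H i) (0, 0) k j * conj (v k) * v j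
      + hesM (H i) (0, 0) j k * v k * conj (v j)
      + conj (hesP (H i) (0, 0) j k) * conj (v k) * conj (v j))
      = (∑ j, ∑ k, hesP (H i) (0, 0) j k * v k * v j)
        + (∑ j, ∑ k, conj (v j) * hesM (H i) (0, 0) j k * v k)
        + (∑ j, ∑ k, conj (v j) * hesM (H i) (0, 0) j k * v k)
        + conj (∑ j, ∑ k, hesP (H i) (0, 0) j k * v k * v j) := by
    simp only [Finset.sum_add_distrib, map_sum, map_mul]
    congr 1
    congr 1
    · congr 1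
      rw [Finset.sum_comm]
      exact Finset.sum_congr rfl fun j _ => Finset.sum_congr rfl fun k _ => by ring
    · exact Finset.sum_congr rfl fun j _ => Finset.sum_congr rfl fun k _ => by ring
  rw [e1]
  simp only [Complex.add_re, Complex.conj_re]
  ring

/-- the real Hessian at the centre. -/
theorem IsWin.hess_center (W : IsWin δ r c C b H q)
    (h0 : Tendsto (fun i => Sq (H i) (q i) (0, 0)) l (𝓝 0)) :
    ∀ ε : ℝ, 0 < ε → ∀ᶠ i in l, ∀ v : CE ι,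
      fderiv ℝ (fun y => fderiv ℝ (fun w => scl (H i) (0, w)) y v) 0 v
        ≤ (- (2 * b ^ 2) + ε) * ‖v‖ ^ 2 := by
  intro ε hε
  have hT : Tendsto (fun i => 2 * (∑ j, ∑ k, ‖hesP (H i) (0, 0) j k‖) + 2 * Sq (H i) (q i) (0, 0)) l
      (𝓝 (2 * (∑ _j : ι, ∑ _k : ι, ‖(0 : ℂ)‖) + 2 * 0)) :=
    ((tendsto_finset_sum _ fun j _ => tendsto_finset_sum _ fun k _ =>
      (W.tendsto_hesP h0 j k).norm).const_mul 2).add (h0.const_mul 2)
  simp only [norm_zero, Finset.sum_const_zero, mul_zero, add_zero] at hT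
  filter_upwards [hT.eventually_lt_const hε] with i hi v
  rw [W.hess_center_eq i v]
  have hnorm : ‖v‖ ^ 2 = ∑ k, ‖v k‖ ^ 2 := EuclideanSpace.norm_sq_eq v
  have hB : (∑ j, ∑ k, hesP (H i) (0, 0) j k * v k * v j).re
      ≤ (∑ j, ∑ k, ‖hesP (H i) (0, 0) j k‖) * ‖v‖ ^ 2 := by
    refine (Complex.re_le_norm _).trans ?_
    refine (norm_sum_le _ _).trans ?_
    rw [Finset.sum_mul]
    refine Finset.sum_le_sum fun j _ => ?_
    refine (norm_sum_le _ _).trans ?_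
    rw [Finset.sum_mul]
    refine Finset.sum_le_sum fun k _ => ?_
    rw [norm_mul, norm_mul, mul_assoc, sq]
    exact mul_le_mul_of_nonneg_left (mul_le_mul (PiLp.norm_apply_le v k) (PiLp.norm_apply_le v j)
      (norm_nonneg _) (norm_nonneg _)) (norm_nonneg _)
  have h1 := alg_qf_le_trace (W.harM_posSemidef i) v
  rw [← W.Sq_center i, qf_add, qf_add, qf_smul, ← hnorm] at h1
  have h2 := alg_sq_lower W.b_pos.le (W.ric_lower i) v
  rw [← hnorm] at h2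
  have hq : 0 < q i := by linarith [W.q_gt i, W.δ_pos]
  have h3 : 0 ≤ (q i)⁻¹ * qf (ricM (H i) (0, 0)) v :=
    mul_nonneg (inv_pos.2 hq).le (qf_nonneg (W.ctr_posDef i).posSemidef _)
  have h4 := mul_le_mul_of_nonneg_right hi.le (sq_nonneg ‖v‖)
  nlinarith

theorem IsWin.tendsto_fderiv (W : IsWin δ r c C b H q)
    (h0 : Tendsto (fun i => Sq (H i) (q i) (0, 0)) l (𝓝 0)) :
    Tendsto (fun i => ‖fderiv ℝ (fun w => scl (H i) (0, w)) 0‖) l (𝓝 0) := by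
  have hT : Tendsto (fun i => 2 * ∑ k, ‖dscl (H i) k (0, 0)‖) l
      (𝓝 (2 * ∑ _k : ι, ‖(0 : ℂ)‖)) :=
    (tendsto_finset_sum _ fun k _ => (W.tendsto_dscl h0 k).norm).const_mul 2
  simp only [norm_zero, Finset.sum_const_zero, mul_zero] at hT
  refine squeeze_zero (fun _ => norm_nonneg _) (fun i => ?_) hT
  refine ContinuousLinearMap.opNorm_le_bound _
    (mul_nonneg zero_le_two (Finset.sum_nonneg fun _ _ => norm_nonneg _)) fun v => ?_
  rw [fderiv_real_eq _ ((W.ctr_contDiffAt_scl i).differentiableAt (by norm_num)) v,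
    Real.norm_eq_abs, abs_mul, abs_two, mul_assoc]
  refine mul_le_mul_of_nonneg_left ?_ zero_le_two
  refine (Complex.abs_re_le_norm _).trans ?_
  refine (norm_sum_le _ _).trans ?_
  rw [Finset.sum_mul]
  refine Finset.sum_le_sum fun k _ => ?_
  rw [norm_mul]
  exact mul_le_mul_of_nonneg_left (PiLp.norm_apply_le v k) (norm_nonneg _)

/-- **Part A**: uniform strict concavity (in the Euclidean sense of the chart) of the rescaled scalar curvature on a ball of fixed radius,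
and smallness of its gradient at the centre. -/
theorem IsWin.concave (W : IsWin δ r c C b H q)
    (h0 : Tendsto (fun i => Sq (H i) (q i) (0, 0)) l (𝓝 0)) :
    ∃ r' : ℝ, 0 < r' ∧ r' ≤ r ∧ ∀ η : ℝ, 0 < η → ∀ᶠ i in l,
      ‖fderiv ℝ (fun w => scl (H i) (0, w)) 0‖ ≤ η ∧
      ∀ w ∈ Metric.ball (0 : CE ι) r', ∀ v : CE ι,
        fderiv ℝ (fun y => fderiv ℝ (fun w => scl (H i) (0, w)) y v) w v ≤ - b ^ 2 * ‖v‖ ^ 2 := by
  obtain ⟨C₃, hC₃, hlip⟩ := (W.ub_scl.slice0 W.δ_pos).snd_lipschitz Metric.isOpen_ball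
    (convex_ball (0 : CE ι) r)
  have hb2 : 0 < b ^ 2 := pow_pos W.b_pos 2
  have hr'' : 0 < b ^ 2 / (2 * (C₃ + 1)) := by positivity
  refine ⟨min r (b ^ 2 / (2 * (C₃ + 1))), lt_min W.r_pos hr'', min_le_left _ _, fun η hη => ?_⟩
  filter_upwards [(W.tendsto_fderiv h0).eventually_lt_const hη,
    W.hess_center h0 (b ^ 2 / 2) (by positivity)] with i h1 h2
  refine ⟨h1.le, fun w hw v => ?_⟩
  have hwr : w ∈ Metric.ball (0 : CE ι) r := Metric.ball_subset_ball (min_le_left _ _) hw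
  have h3 := (abs_le.1 (hlip i w hwr 0 (Metric.mem_ball_self W.r_pos) v)).2
  have hw' : ‖w - 0‖ ≤ b ^ 2 / (2 * (C₃ + 1)) := by
    rw [sub_zero]
    exact ((mem_ball_zero_iff.1 hw).le).trans (min_le_right _ _)
  have h4 : C₃ * ‖w - 0‖ ≤ b ^ 2 / 2 := by
    calc C₃ * ‖w - 0‖ ≤ C₃ * (b ^ 2 / (2 * (C₃ + 1))) := mul_le_mul_of_nonneg_left hw' hC₃
      _ ≤ b ^ 2 / 2 := by
        rw [mul_div_assoc', div_le_div_iff₀ (by positivity) (by positivity)]
        nlinarith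
  have h5 := mul_le_mul_of_nonneg_right h4 (sq_nonneg ‖v‖)
  have h6 := h2 v
  nlinarith

end concave

end Claimed.Agent.R316.SC
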