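import Claimed.Agent.R316.S7.SC.Win
import Claimed.Agent.R316.Pack019

/-!
# Row 316, BP-S7-5: evolution identities in a window (section `ident`, leaf L-S7-5-4) and the Harnack test functions (section `test`, leaf L-S7-5-6)

PROVED (helper11), no `sorry` in this file.
-/

set_option autoImplicit false
set_option linter.unusedSectionVars false
open scoped ContDiff ComplexOrder ComplexConjugate Topology Matrix

namespace Claimed.Agent.R316.SC

/-!
## Section `ident`, leaf L-S7-5-4: evolution identities in a window (~800 lines, matrix calculus)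

PROVED (helper11), no `sorry` in this section; auxiliary lemmas: prefix `id_`.
`S7/SC/Win.lean`, `S7/H1/Param.lean`, `CW/*` may be used as they stand.  charts.tex l.706-745; ONLY the flow equation `H_z = - A` is used.

Fix `i`, write `H = H i`, `P = H⁻¹`, `A = ricM H`, `L = hesM H`, `R̂ = scl H`.  Joint smoothness of all quantities on the open set `dom δ r = Ioo (-δ) δ ×ˢ ball 0 r`: `(W.ub_… ).smooth i`.
* `hasDerivAt_lgd`: `hasDerivAt_logDet` (CW-3, Part D) with `H' = - A`:  `∂_z log det H = tr (P H_z) = - R̂`.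
* `hasDerivAt_ric`: `hasDerivAt_levi_param` (`I = Ioo (-δ) δ`, `U = ball 0 r`, `F = lgd H`): `∂_z levi (lgd (z, ·)) w = levi (fun y => deriv (fun s => lgd (s, y)) z) w = levi (- R̂ (z, ·)) w` (`levi_congr` on the open ball, `levi_neg`).
* `hasDerivAt_inv`: `hasDerivAt_matInv`: `P_z = - P H_z P = P A P`.
* `sclT_eq`: `hasDerivAt_trace_inv_mul` (or product rule): `R̂_z = tr (P A P A) + tr (P L)`.
* `hasDerivAt_hesM`: `hasDerivAt_levi_param` for `F = scl H`: `∂_z L = levi (sclT (z, ·))`.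
* `dt_sclT_center`: differentiate `z ↦ tr (P A P A) + tr (P L)` at `w = 0`, `z = 0` (`hasDerivAt_matMul`, `hasDerivAt_matTrace`; the formula `sclT_eq` holds for all `z` near `0`: `Filter.EventuallyEq.deriv_eq`), then put `P = 1`:
  `tr (A A A) + tr (L A) + tr (A A A) + tr (A L)` from the first term (four factors), `tr (A L) + tr (levi sclT)` from the second; `Matrix.trace_mul_comm`.
* `Sq_center`, `heat_Sq_center`: `Sq = sclT + scl * (q + z)⁻¹`; `d/dz (q + z)⁻¹ = - (q + z)⁻²`; `levi` of `Sq (0, ·) = sclT (0, ·) + q⁻¹ scl (0, ·)` by `levi_add`, `levi_const_mul`.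
* `harM_posSemidef`: `W.matrix i` and `ricT = hesM` (`hasDerivAt_ric … .deriv`).
-/

section ident

variable {ι : Type} [Fintype ι] [DecidableEq ι] {I : Type} {δ r c C b : ℝ}
variable {H : I → ℝ × CE ι → Matrix ι ι ℂ} {q : I → ℝ}

theorem id_slice_cd {F : ℝ × CE ι → ℝ} (hF : ContDiffOn ℝ ∞ F (dom δ r)) {p : ℝ × CE ι}
    (hp : p ∈ dom δ r) : ContDiffAt ℝ 2 (fun y => F (p.1, y)) p.2 :=
  (((contDiffOn_slice (I := Set.Ioo (-δ) δ) (U := Metric.ball (0 : CE ι) r) hF hp.1).contDiffAt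
    (Metric.isOpen_ball.mem_nhds hp.2))).of_le lv_two_le_infty

theorem IsWin.ric_isHermitian (W : IsWin δ r c C b H q) (i : I) {p : ℝ × CE ι} (hp : p ∈ dom δ r) :
    (ricM (H i) p).IsHermitian := by
  exact (levi_isHermitian (id_slice_cd ((W.ub_lgd).smooth i) hp)).neg

theorem IsWin.hesM_isHermitian (W : IsWin δ r c C b H q) (i : I) {p : ℝ × CE ι}
    (hp : p ∈ dom δ r) : (hesM (H i) p).IsHermitian := by
  exact levi_isHermitian (id_slice_cd ((W.ub_scl).smooth i) hp)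

/-- `∂_z log det H = - R̂`. -/
theorem IsWin.hasDerivAt_lgd (W : IsWin δ r c C b H q) (i : I) {p : ℝ × CE ι} (hp : p ∈ dom δ r) :
    HasDerivAt (fun s => lgd (H i) (s, p.2)) (- scl (H i) p) p.1 := by
  have h := hasDerivAt_logDet (H := fun s => H i (s, p.2)) (H' := - ricM (H i) p)
    (fun j k => W.flow i p hp j k) (W.posDef i hp)
  refine h.congr_deriv ?_
  simp only [scl, Matrix.mul_neg, Matrix.trace_neg, Complex.neg_re]

/-- `A_z = levi R̂`. -/
theorem IsWin.hasDerivAt_ric (W : IsWin δ r c C b H q) (i : I) {p : ℝ × CE ι} (hp : p ∈ dom δ r)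
    (j l : ι) : HasDerivAt (fun s => ricM (H i) (s, p.2) j l) (hesM (H i) p j l) p.1 := by
  have h := (hasDerivAt_levi_param isOpen_Ioo Metric.isOpen_ball (F := lgd (H i))
    ((W.ub_lgd).smooth i) j l hp.1 hp.2).neg
  have e : levi (fun w => deriv (fun s => lgd (H i) (s, w)) p.1) p.2 = - hesM (H i) p := by
    have e1 : (fun w => deriv (fun s => lgd (H i) (s, w)) p.1) =ᶠ[𝓝 p.2]
        fun w => - scl (H i) (p.1, w) := by
      filter_upwards [Metric.isOpen_ball.mem_nhds hp.2] with w hw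
      exact (W.hasDerivAt_lgd i (p := (p.1, w)) ⟨hp.1, hw⟩).deriv
    rw [levi_congr e1, levi_neg]
    rfl
  rw [e, Matrix.neg_apply, neg_neg] at h
  exact h

/-- `(H⁻¹)_z = H⁻¹ A H⁻¹`. -/
theorem IsWin.hasDerivAt_inv (W : IsWin δ r c C b H q) (i : I) {p : ℝ × CE ι} (hp : p ∈ dom δ r)
    (j l : ι) : HasDerivAt (fun s => (H i (s, p.2))⁻¹ j l)
      (((H i p)⁻¹ * ricM (H i) p * (H i p)⁻¹) j l) p.1 := by
  have h := hasDerivAt_matInv (H := fun s => H i (s, p.2)) (H' := - ricM (H i) p)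
    (fun j k => W.flow i p hp j k) (det_ne_zero_of_posDef (W.posDef i hp)) j l
  refine h.congr_deriv ?_
  simp only [Matrix.mul_neg, Matrix.neg_mul, neg_neg]

/-- `R̂_z = |A|² + Δ R̂`. -/
theorem IsWin.sclT_eq (W : IsWin δ r c C b H q) (i : I) {p : ℝ × CE ι} (hp : p ∈ dom δ r) :
    sclT (H i) p = ((H i p)⁻¹ * ricM (H i) p * (H i p)⁻¹ * ricM (H i) p).trace.re
      + ((H i p)⁻¹ * hesM (H i) p).trace.re := by
  have h := hasDerivAt_trace_inv_mul (H := fun s => H i (s, p.2)) (H' := - ricM (H i) p)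
    (A := fun s => ricM (H i) (s, p.2)) (A' := hesM (H i) p)
    (fun j k => W.flow i p hp j k) (det_ne_zero_of_posDef (W.posDef i hp))
    (fun j k => W.hasDerivAt_ric i hp j k)
  have h2 := Complex.reCLM.hasFDerivAt.comp_hasDerivAt p.1 h
  have h3 : sclT (H i) p = _ := h2.deriv
  rw [h3]
  simp only [Complex.reCLM_apply, Complex.sub_re, Matrix.mul_neg, Matrix.neg_mul,
    Matrix.trace_neg, Complex.neg_re]
  ring

theorem IsWin.hasDerivAt_scl (W : IsWin δ r c C b H q) (i : I) {p : ℝ × CE ι} (hp : p ∈ dom δ r) :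
    HasDerivAt (fun s => scl (H i) (s, p.2)) (sclT (H i) p) p.1 := by
  exact hasDerivAt_param isOpen_Ioo Metric.isOpen_ball ((W.ub_scl).smooth i) hp.1 hp.2

/-- `L_z = levi R̂_z`. -/
theorem IsWin.hasDerivAt_hesM (W : IsWin δ r c C b H q) (i : I) {p : ℝ × CE ι} (hp : p ∈ dom δ r)
    (j l : ι) : HasDerivAt (fun s => hesM (H i) (s, p.2) j l)
      (levi (fun y => sclT (H i) (p.1, y)) p.2 j l) p.1 := by
  exact hasDerivAt_levi_param isOpen_Ioo Metric.isOpen_ball (F := scl (H i))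
    ((W.ub_scl).smooth i) j l hp.1 hp.2

/-- `R̂ = tr A` at the centre. -/
theorem IsWin.scl_center (W : IsWin δ r c C b H q) (i : I) :
    scl (H i) (0, 0) = (ricM (H i) (0, 0)).trace.re := by
  simp only [scl, W.center i, inv_one, Matrix.one_mul]

/-- `R̂_zz` at the centre. -/
theorem IsWin.dt_sclT_center (W : IsWin δ r c C b H q) (i : I) :
    deriv (fun s => sclT (H i) (s, 0)) 0 =
      2 * (ricM (H i) (0, 0) * ricM (H i) (0, 0) * ricM (H i) (0, 0)).trace.re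
      + 3 * (ricM (H i) (0, 0) * hesM (H i) (0, 0)).trace.re
      + (levi (fun y => sclT (H i) (0, y)) 0).trace.re := by
  have h00 : ((0, 0) : ℝ × CE ι) ∈ dom (ι := ι) δ r := zero_mem_dom W.δ_pos W.r_pos
  have hP := W.hasDerivAt_inv i h00
  have hA := W.hasDerivAt_ric i h00
  have hL := W.hasDerivAt_hesM i h00
  simp only [W.center i, inv_one, Matrix.one_mul, Matrix.mul_one] at hP
  have h1 := hasDerivAt_matMul (A := fun s => (H i (s, 0))⁻¹) (B := fun s => ricM (H i) (s, 0)) hP hA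
  have h2 := hasDerivAt_matMul (A := fun s => (H i (s, 0))⁻¹ * ricM (H i) (s, 0))
    (B := fun s => (H i (s, 0))⁻¹) h1 hP
  have h3 := hasDerivAt_matMul (A := fun s => (H i (s, 0))⁻¹ * ricM (H i) (s, 0) * (H i (s, 0))⁻¹)
    (B := fun s => ricM (H i) (s, 0)) h2 hA
  have h4 := hasDerivAt_matMul (A := fun s => (H i (s, 0))⁻¹) (B := fun s => hesM (H i) (s, 0)) hP hL
  have t3 := Complex.reCLM.hasFDerivAt.comp_hasDerivAt (0 : ℝ)
    (hasDerivWithinAt_univ.1 (hasDerivWithinAt_matTrace fun j k => (h3 j k).hasDerivWithinAt))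
  have t4 := Complex.reCLM.hasFDerivAt.comp_hasDerivAt (0 : ℝ)
    (hasDerivWithinAt_univ.1 (hasDerivWithinAt_matTrace fun j k => (h4 j k).hasDerivWithinAt))
  have e : (fun s => sclT (H i) (s, 0)) =ᶠ[𝓝 (0 : ℝ)] fun s =>
      ((H i (s, 0))⁻¹ * ricM (H i) (s, 0) * (H i (s, 0))⁻¹ * ricM (H i) (s, 0)).trace.re
      + ((H i (s, 0))⁻¹ * hesM (H i) (s, 0)).trace.re := by
    filter_upwards [isOpen_Ioo.mem_nhds h00.1] with s hs
    exact W.sclT_eq i (p := (s, 0)) ⟨hs, h00.2⟩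
  rw [e.deriv_eq]
  have t5 := (t3.add t4).deriv
  refine t5.trans ?_
  simp only [W.center i, inv_one, Matrix.one_mul, Matrix.mul_one, Complex.reCLM_apply,
    Matrix.trace_add, Matrix.add_mul, Complex.add_re]
  rw [Matrix.trace_mul_comm (hesM (H i) (0, 0)) (ricM (H i) (0, 0))]
  ring

/-- `S = tr (L + A² + k A)` at the centre. -/
theorem IsWin.Sq_center (W : IsWin δ r c C b H q) (i : I) :
    Sq (H i) (q i) (0, 0) = (hesM (H i) (0, 0) + ricM (H i) (0, 0) * ricM (H i) (0, 0)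
      + (((q i)⁻¹ : ℝ) : ℂ) • ricM (H i) (0, 0)).trace.re := by
  have h00 : ((0, 0) : ℝ × CE ι) ∈ dom (ι := ι) δ r := zero_mem_dom W.δ_pos W.r_pos
  simp only [Sq, W.sclT_eq i h00, W.scl_center i, W.center i, inv_one, Matrix.one_mul,
    Matrix.mul_one, Matrix.trace_add, Matrix.trace_smul, Complex.add_re, add_zero, smul_eq_mul,
    Complex.re_ofReal_mul]
  ring

theorem id_q_ne (W : IsWin δ r c C b H q) (i : I) : q i ≠ 0 := by
  have h1 := W.q_gt i
  have h2 := W.δ_pos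
  exact ne_of_gt (by linarith)

theorem id_dt_Sq_center (W : IsWin δ r c C b H q) (i : I) :
    deriv (fun s => Sq (H i) (q i) (s, 0)) 0 = deriv (fun s => sclT (H i) (s, 0)) 0
      + (q i)⁻¹ * sclT (H i) (0, 0) - ((q i)⁻¹) ^ 2 * scl (H i) (0, 0) := by
  have h00 : ((0, 0) : ℝ × CE ι) ∈ dom (ι := ι) δ r := zero_mem_dom W.δ_pos W.r_pos
  have hq : q i ≠ 0 := id_q_ne W i
  have d1 : HasDerivAt (fun s => sclT (H i) (s, 0)) (deriv (fun s => sclT (H i) (s, 0)) 0) 0 :=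
    hasDerivAt_param isOpen_Ioo Metric.isOpen_ball ((W.ub_sclT).smooth i) h00.1 h00.2
  have d2 : HasDerivAt (fun s => scl (H i) (s, 0)) (sclT (H i) (0, 0)) 0 :=
    W.hasDerivAt_scl i (p := (0, 0)) h00
  have d3 : HasDerivAt (fun s : ℝ => q i + s) 1 0 := (hasDerivAt_id (0 : ℝ)).const_add (q i)
  have d4 : HasDerivAt (fun s => scl (H i) (s, 0) / (q i + s))
      ((sclT (H i) (0, 0) * (q i + 0) - scl (H i) (0, 0) * 1) / (q i + 0) ^ 2) 0 :=
    d2.div d3 (by simpa using hq)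
  have d5 : HasDerivAt (fun s => sclT (H i) (s, 0) + scl (H i) (s, 0) / (q i + s))
      (deriv (fun s => sclT (H i) (s, 0)) 0
        + (sclT (H i) (0, 0) * (q i + 0) - scl (H i) (0, 0) * 1) / (q i + 0) ^ 2) 0 := d1.add d4
  have e : (fun s => Sq (H i) (q i) (s, 0)) =
      fun s => sclT (H i) (s, 0) + scl (H i) (s, 0) / (q i + s) := by
    funext s
    simp only [Sq]
  rw [e, d5.deriv]
  generalize deriv (fun s => sclT (H i) (s, 0)) 0 = x
  generalize sclT (H i) (0, 0) = y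
  generalize scl (H i) (0, 0) = z
  simp only [add_zero, mul_one]
  field_simp
  ring

theorem id_levi_Sq_center (W : IsWin δ r c C b H q) (i : I) :
    levi (fun y => Sq (H i) (q i) (0, y)) 0 =
      levi (fun y => sclT (H i) (0, y)) 0 + (((q i)⁻¹ : ℝ) : ℂ) • hesM (H i) (0, 0) := by
  have h00 : ((0, 0) : ℝ × CE ι) ∈ dom (ι := ι) δ r := zero_mem_dom W.δ_pos W.r_pos
  have e : (fun y => Sq (H i) (q i) (0, y)) =
      fun y => sclT (H i) (0, y) + (q i)⁻¹ * scl (H i) (0, y) := by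
    funext y
    simp only [Sq, add_zero, div_eq_inv_mul]
  have c1 : ContDiffAt ℝ 2 (fun y => sclT (H i) (0, y)) 0 :=
    id_slice_cd (p := (0, 0)) ((W.ub_sclT).smooth i) h00
  have c2 : ContDiffAt ℝ 2 (fun y => scl (H i) (0, y)) 0 :=
    id_slice_cd (p := (0, 0)) ((W.ub_scl).smooth i) h00
  rw [e, levi_add c1 (contDiffAt_const.mul c2), levi_const_mul _ c2]
  simp only [hesM]

/-- `(∂_z - Δ) S = 2 tr A³ + 3 tr (A L) + k tr A² - k² tr A` at the centre (`chart:equality-evolution`). -/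
theorem IsWin.heat_Sq_center (W : IsWin δ r c C b H q) (i : I) :
    deriv (fun s => Sq (H i) (q i) (s, 0)) 0 - (levi (fun y => Sq (H i) (q i) (0, y)) 0).trace.re =
      2 * (ricM (H i) (0, 0) * ricM (H i) (0, 0) * ricM (H i) (0, 0)).trace.re
      + 3 * (ricM (H i) (0, 0) * hesM (H i) (0, 0)).trace.re
      + (q i)⁻¹ * (ricM (H i) (0, 0) * ricM (H i) (0, 0)).trace.re
      - ((q i)⁻¹) ^ 2 * (ricM (H i) (0, 0)).trace.re := by
  have h00 : ((0, 0) : ℝ × CE ι) ∈ dom (ι := ι) δ r := zero_mem_dom W.δ_pos W.r_pos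
  rw [id_dt_Sq_center W i, id_levi_Sq_center W i, W.dt_sclT_center i, W.sclT_eq i h00,
    W.scl_center i]
  simp only [W.center i, inv_one, Matrix.one_mul, Matrix.mul_one, Matrix.trace_add,
    Matrix.trace_smul, Complex.add_re, smul_eq_mul, Complex.re_ofReal_mul]
  ring

/-- the matrix Harnack inequality at the centre, with `A_z = L`. -/
theorem IsWin.harM_posSemidef (W : IsWin δ r c C b H q) (i : I) :
    (hesM (H i) (0, 0) + ricM (H i) (0, 0) * ricM (H i) (0, 0)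
      + (((q i)⁻¹ : ℝ) : ℂ) • ricM (H i) (0, 0)).PosSemidef := by
  have h00 : ((0, 0) : ℝ × CE ι) ∈ dom (ι := ι) δ r := zero_mem_dom W.δ_pos W.r_pos
  have e : ricT (H i) (0, 0) = hesM (H i) (0, 0) := by
    ext j l
    exact (W.hasDerivAt_ric i h00 j l).deriv
  have h := W.matrix i
  rwa [e] at h

end ident

/-!
## Section `test`, leaf L-S7-5-6: the Harnack expression as an almost minimal test function (~700 lines)

PROVED (helper11), no `sorry` in this section; auxiliary lemmas: prefix `tst_`.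
`S7/SC/UB.lean`, `S7/SC/Win.lean`, `CW/*` may be used as they stand.

`W : IsWin …`, `h0 : S_i(0,0) → 0` along the filter `l`.
* `tendsto_dscl` (`∂R̂ → 0` at the centre).  `Λ` = a bound with `qf (ricM (H i) (0,0)) x ≤ Λ ∑ ‖x k‖²`, `Λ > 0` (entries bounded by `(W.ub_ric j l).bound`).  `W.scalar i (0,0) _ X` with `X k = - Λ⁻¹ conj (dscl k)`:
  `0 ≤ S - 2 Λ⁻¹ ∑ ‖dscl k‖² + Λ⁻² Λ ∑ ‖dscl k‖²`, so `‖dscl k‖² ≤ ∑ … ≤ Λ S`; squeeze (`S ≥ 0` by `X = 0`).
* `tendsto_dtSq`: `almostMin` with `ρ = δ`, `φ i s = Sq (H i) (q i) (s, 0)` (`UB.timeline`, `W.ub_Sq`; `φ ≥ 0` by `W.scalar` with `X = 0`: `qf_zero_vec`).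
* `snd_test`: `almostMin` with `ρ = r`,
  `φ i s = Sq (H i) (q i) (0, s • v) + 2 * (∑ k, (s * Y i k) * dscl (H i) k (0, s • v)).re + qf (ricM (H i) (0, s • v)) (fun k => s * Y i k)`
  `      = φ₀ i s + s * φ₁ i s + s ^ 2 * φ₂ i s`,  `φ₁ i s = 2 (∑ k, Y i k * dscl … ).re`,  `φ₂ i s = qf (ricM …) (Y i)` (`qf_smul_vec` with the real scalar `s`).
  `φ ≥ 0`: `W.scalar i (0, s • v) _ (fun k => s * Y i k)` (`‖s • v‖ < r`).  `UB`: `UB.line`, `UB.mul`, `UB.sum`, `ub_const` (bounded `Y`), `ub_clm` for `s ↦ s` on the bounded interval, `qf_eq_sum`.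
  `deriv (deriv φ) 0 = φ₀'' 0 + 2 φ₁' 0 + 2 φ₂ 0` (product rule twice; all functions smooth on `Ioo (-r) r`);
  `φ₀'' 0 = D² (Sq (0, ·)) (v, v)` (`fderiv_fderiv_eq_deriv_deriv`, CW-2, with `z = 0`: `0 + s • v`), `φ₁' 0 = 2 (∑ k, Y i k * fderiv ℝ (dscl k (0, ·)) 0 v).re` (chain rule along the line).
-/

section test

open Filter

variable {ι : Type} [Fintype ι] [DecidableEq ι] {I : Type} {δ r c C b : ℝ}
variable {H : I → ℝ × CE ι → Matrix ι ι ℂ} {q : I → ℝ} {l : Filter I}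

theorem IsWin.Sq_nonneg (W : IsWin δ r c C b H q) (i : I) {p : ℝ × CE ι} (hp : p ∈ dom δ r) :
    0 ≤ Sq (H i) (q i) p := by
  have h := W.scalar i p hp 0
  simpa only [Pi.zero_apply, zero_mul, Finset.sum_const_zero, Complex.zero_re, mul_zero, add_zero,
    qf_zero_vec] using h

theorem tst_qf_le_of_entry {A : Matrix ι ι ℂ} {B : ℝ} (hB : 0 ≤ B) (h : ∀ j k, ‖A j k‖ ≤ B)
    (v : ι → ℂ) : qf A v ≤ B * Fintype.card ι * ∑ j, ‖v j‖ ^ 2 := by
  have h1 : |qf A v| ≤ B * (∑ j, ‖v j‖) ^ 2 := by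
    rw [qf_eq_sum]
    refine (Complex.abs_re_le_norm _).trans ?_
    refine (norm_sum_le _ _).trans ?_
    rw [sq, Finset.sum_mul_sum, Finset.mul_sum]
    refine Finset.sum_le_sum fun j _ => ?_
    refine (norm_sum_le _ _).trans ?_
    rw [Finset.mul_sum]
    refine Finset.sum_le_sum fun k _ => ?_
    rw [norm_mul, norm_mul, RCLike.norm_conj]
    have := h j k
    have h2 : ‖v j‖ * ‖A j k‖ * ‖v k‖ ≤ ‖v j‖ * B * ‖v k‖ := by gcongr
    linarith
  have h2 : (∑ j, ‖v j‖) ^ 2 ≤ Fintype.card ι * ∑ j, ‖v j‖ ^ 2 := by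
    have := sq_sum_le_card_mul_sum_sq (s := Finset.univ) (f := fun j => ‖v j‖)
    simpa using this
  have h3 := mul_le_mul_of_nonneg_left h2 hB
  have h4 := (abs_le.1 h1).2
  linarith

/-- a uniform upper bound of the Ricci matrix. -/
theorem IsWin.exists_ric_upper (W : IsWin δ r c C b H q) :
    ∃ Λ : ℝ, 0 < Λ ∧ ∀ i, ∀ p ∈ dom (ι := ι) δ r,
      (((Λ : ℝ) : ℂ) • (1 : Matrix ι ι ℂ) - ricM (H i) p).PosSemidef := by
  choose K hK0 hK using fun j l => (W.ub_ric j l).bound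
  have hB0 : 0 ≤ ∑ j, ∑ l, K j l := Finset.sum_nonneg fun j _ => Finset.sum_nonneg fun l _ => hK0 j l
  have hle : ∀ j l, K j l ≤ ∑ j, ∑ l, K j l := fun j l =>
    (Finset.single_le_sum (f := fun l => K j l) (fun l _ => hK0 j l) (Finset.mem_univ l)).trans
      (Finset.single_le_sum (f := fun j => ∑ l, K j l)
        (fun j _ => Finset.sum_nonneg fun l _ => hK0 j l) (Finset.mem_univ j))
  refine ⟨(∑ j, ∑ l, K j l) * Fintype.card ι + 1, by positivity, fun i p hp => ?_⟩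
  rw [posSemidef_iff_qf ((isHermitian_smul_real _ Matrix.isHermitian_one).sub
    (W.ric_isHermitian i hp))]
  intro v
  rw [qf_sub, qf_smul, qf_one]
  have h1 := tst_qf_le_of_entry hB0 (fun j l => (hK j l i p hp).trans (hle j l)) v
  have h2 : 0 ≤ ∑ j, ‖v j‖ ^ 2 := Finset.sum_nonneg fun j _ => by positivity
  nlinarith

/-- the gradient of the scalar curvature tends to `0` at the centre. -/
theorem IsWin.tendsto_dscl (W : IsWin δ r c C b H q)
    (h0 : Tendsto (fun i => Sq (H i) (q i) (0, 0)) l (𝓝 0)) (k : ι) :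
    Tendsto (fun i => dscl (H i) k (0, 0)) l (𝓝 0) := by
  obtain ⟨Λ, hΛ, hup⟩ := W.exists_ric_upper
  have h00 : ((0, 0) : ℝ × CE ι) ∈ dom (ι := ι) δ r := zero_mem_dom W.δ_pos W.r_pos
  have key : ∀ i, ‖dscl (H i) k (0, 0)‖ ≤ Real.sqrt (Λ * Sq (H i) (q i) (0, 0)) := by
    intro i
    set d : ι → ℂ := fun k => dscl (H i) k (0, 0) with hd
    set N : ℝ := ∑ k, ‖d k‖ ^ 2 with hN
    have h1 := W.scalar i (0, 0) h00 (fun k => - (((Λ⁻¹ : ℝ) : ℂ)) * conj (d k))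
    have e1 : (∑ k, (- (((Λ⁻¹ : ℝ) : ℂ)) * conj (d k)) * dscl (H i) k (0, 0)).re = - Λ⁻¹ * N := by
      have : ∀ k, (- (((Λ⁻¹ : ℝ) : ℂ)) * conj (d k)) * dscl (H i) k (0, 0)
          = (((- Λ⁻¹ * ‖d k‖ ^ 2 : ℝ)) : ℂ) := by
        intro k
        have h3 : conj (d k) * d k = ((‖d k‖ ^ 2 : ℝ) : ℂ) := by
          rw [mul_comm, Complex.mul_conj, Complex.normSq_eq_norm_sq]
        change (- (((Λ⁻¹ : ℝ) : ℂ)) * conj (d k)) * d k = _
        rw [mul_assoc, h3]
        push_cast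
        ring
      rw [Finset.sum_congr rfl fun k _ => this k, ← Complex.ofReal_sum, Complex.ofReal_re,
        ← Finset.mul_sum]
    have e2 : qf (ricM (H i) (0, 0)) (fun k => - (((Λ⁻¹ : ℝ) : ℂ)) * conj (d k)) ≤ Λ⁻¹ * N := by
      have h4 := qf_mono (hup i (0, 0) h00) (fun k => - (((Λ⁻¹ : ℝ) : ℂ)) * conj (d k))
      rw [qf_smul, qf_one] at h4
      refine h4.trans (le_of_eq ?_)
      have : ∀ k, ‖- (((Λ⁻¹ : ℝ) : ℂ)) * conj (d k)‖ ^ 2 = Λ⁻¹ ^ 2 * ‖d k‖ ^ 2 := by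
        intro k
        rw [norm_mul, norm_neg, Complex.norm_real, RCLike.norm_conj, mul_pow, Real.norm_eq_abs,
          sq_abs]
      rw [Finset.sum_congr rfl fun k _ => this k, ← Finset.mul_sum, ← hN]
      field_simp
    rw [e1] at h1
    have h5 : Λ⁻¹ * N ≤ Sq (H i) (q i) (0, 0) := by linarith
    have h6 : N ≤ Λ * Sq (H i) (q i) (0, 0) := by
      have := mul_le_mul_of_nonneg_left h5 hΛ.le
      rwa [← mul_assoc, mul_inv_cancel₀ hΛ.ne', one_mul] at this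
    have h7 : ‖d k‖ ^ 2 ≤ N :=
      Finset.single_le_sum (f := fun k => ‖d k‖ ^ 2) (fun k _ => by positivity) (Finset.mem_univ k)
    exact Real.le_sqrt_of_sq_le (h7.trans h6)
  have hlim : Tendsto (fun i => Real.sqrt (Λ * Sq (H i) (q i) (0, 0))) l (𝓝 0) := by
    have := (h0.const_mul Λ).sqrt
    simpa using this
  exact squeeze_zero_norm key hlim

/-- `∂_z S → 0` at the centre. -/
theorem IsWin.tendsto_dtSq (W : IsWin δ r c C b H q)
    (h0 : Tendsto (fun i => Sq (H i) (q i) (0, 0)) l (𝓝 0)) :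
    Tendsto (fun i => deriv (fun s => Sq (H i) (q i) (s, 0)) 0) l (𝓝 0) := by
  exact (almostMin W.δ_pos ((W.ub_Sq).timeline W.r_pos)
    (fun i s hs => W.Sq_nonneg i ⟨hs, Metric.mem_ball_self W.r_pos⟩) h0).1

/-- the second derivative at `0` of `f₀ + s f₁ + s² f₂`. -/
theorem tst_deriv2 {ρ : ℝ} (hρ : 0 < ρ) {f0 f1 f2 : ℝ → ℝ}
    (h0 : ContDiffOn ℝ ∞ f0 (Set.Ioo (-ρ) ρ)) (h1 : ContDiffOn ℝ ∞ f1 (Set.Ioo (-ρ) ρ))
    (h2 : ContDiffOn ℝ ∞ f2 (Set.Ioo (-ρ) ρ)) :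
    deriv (deriv fun s => f0 s + s * f1 s + s ^ 2 * f2 s) 0 =
      deriv (deriv f0) 0 + 2 * deriv f1 0 + 2 * f2 0 := by
  have hO : IsOpen (Set.Ioo (-ρ) ρ) := isOpen_Ioo
  have hm : (0 : ℝ) ∈ Set.Ioo (-ρ) ρ := ⟨by linarith, hρ⟩
  have D : ∀ {f : ℝ → ℝ}, ContDiffOn ℝ ∞ f (Set.Ioo (-ρ) ρ) → ∀ x ∈ Set.Ioo (-ρ) ρ,
      HasDerivAt f (deriv f x) x := fun hf x hx =>
    ((hf.contDiffAt (hO.mem_nhds hx)).differentiableAt (by simp)).hasDerivAt
  have D' : ∀ {f : ℝ → ℝ}, ContDiffOn ℝ ∞ f (Set.Ioo (-ρ) ρ) →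
      ContDiffOn ℝ ∞ (deriv f) (Set.Ioo (-ρ) ρ) := fun hf => hf.deriv_of_isOpen hO (by simp)
  have hsq : ∀ x : ℝ, HasDerivAt (fun s : ℝ => s ^ 2) (2 * x) x := fun x => by
    simpa using hasDerivAt_pow 2 x
  have e : (deriv fun s => f0 s + s * f1 s + s ^ 2 * f2 s) =ᶠ[𝓝 0]
      fun s => deriv f0 s + (1 * f1 s + s * deriv f1 s)
        + (2 * s * f2 s + s ^ 2 * deriv f2 s) := by
    filter_upwards [hO.mem_nhds hm] with s hs
    have a1 : HasDerivAt (fun s => s * f1 s) (1 * f1 s + s * deriv f1 s) s :=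
      (hasDerivAt_id s).mul (D h1 s hs)
    have a2 : HasDerivAt (fun s => s ^ 2 * f2 s) (2 * s * f2 s + s ^ 2 * deriv f2 s) s :=
      (hsq s).mul (D h2 s hs)
    have a3 : HasDerivAt (fun s => f0 s + s * f1 s + s ^ 2 * f2 s)
        (deriv f0 s + (1 * f1 s + s * deriv f1 s) + (2 * s * f2 s + s ^ 2 * deriv f2 s)) s :=
      ((D h0 s hs).add a1).add a2
    exact a3.deriv
  rw [e.deriv_eq]
  have b0 := D (D' h0) 0 hm
  have b1 : HasDerivAt (fun s => 1 * f1 s + s * deriv f1 s)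
      (1 * deriv f1 0 + (1 * deriv f1 0 + 0 * deriv (deriv f1) 0)) 0 :=
    ((D h1 0 hm).const_mul 1).add ((hasDerivAt_id (0 : ℝ)).mul (D (D' h1) 0 hm))
  have b2 : HasDerivAt (fun s => 2 * s * f2 s + s ^ 2 * deriv f2 s)
      ((2 * 1 * f2 0 + 2 * 0 * deriv f2 0) + (2 * 0 * deriv f2 0 + 0 ^ 2 * deriv (deriv f2) 0)) 0 :=
    ((((hasDerivAt_id (0 : ℝ)).const_mul 2).mul (D h2 0 hm))).add
      ((hsq 0).mul (D (D' h2) 0 hm))
  have b3 : HasDerivAt (fun s => deriv f0 s + (1 * f1 s + s * deriv f1 s)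
        + (2 * s * f2 s + s ^ 2 * deriv f2 s))
      (deriv (deriv f0) 0 + (1 * deriv f1 0 + (1 * deriv f1 0 + 0 * deriv (deriv f1) 0))
        + ((2 * 1 * f2 0 + 2 * 0 * deriv f2 0)
          + (2 * 0 * deriv f2 0 + 0 ^ 2 * deriv (deriv f2) 0))) 0 := (b0.add b1).add b2
  rw [b3.deriv]
  ring

/-- second order test along the real line `s ↦ (0, s v)` with the test vector `X = s Y`. -/
theorem IsWin.snd_test (W : IsWin δ r c C b H q)
    (h0 : Tendsto (fun i => Sq (H i) (q i) (0, 0)) l (𝓝 0)) {v : CE ι} (hv : ‖v‖ ≤ 1)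
    {Y : I → ι → ℂ} (hY : ∃ K : ℝ, ∀ i k, ‖Y i k‖ ≤ K) :
    ∀ ε : ℝ, 0 < ε → ∀ᶠ i in l,
      - ε ≤ fderiv ℝ (fun y => fderiv ℝ (fun w => Sq (H i) (q i) (0, w)) y v) 0 v
        + 4 * (∑ k, Y i k * fderiv ℝ (fun w => dscl (H i) k (0, w)) 0 v).re
        + 2 * qf (ricM (H i) (0, 0)) (Y i) := by
  obtain ⟨K, hK⟩ := hY
  have hO : IsOpen (Set.Ioo (-r) r) := isOpen_Ioo
  have h00 : ((0, 0) : ℝ × CE ι) ∈ dom (ι := ι) δ r := zero_mem_dom W.δ_pos W.r_pos
  have hline : ∀ s ∈ Set.Ioo (-r) r, ((0, s • v) : ℝ × CE ι) ∈ dom (ι := ι) δ r := by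
    intro s hs
    refine ⟨h00.1, ?_⟩
    rw [mem_ball_zero_iff, norm_smul, Real.norm_eq_abs]
    have h2 : |s| < r := abs_lt.2 hs
    calc |s| * ‖v‖ ≤ |s| * 1 := mul_le_mul_of_nonneg_left hv (abs_nonneg _)
      _ < r := by rwa [mul_one]
  -- the three coefficient families
  have u0 : UB (Set.Ioo (-r) r) (fun i s => Sq (H i) (q i) (0, s • v)) :=
    (W.ub_Sq).line W.δ_pos hv
  have u1c : UB (Set.Ioo (-r) r) (fun i s => ∑ k, Y i k * dscl (H i) k (0, s • v)) :=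
    UB.sum hO Finset.univ fun k _ =>
      (ub_const (c := fun i => Y i k) ⟨K, fun i => hK i k⟩).mul hO ((W.ub_dscl k).line W.δ_pos hv)
  have u1 : UB (Set.Ioo (-r) r) (fun i s => 2 * (∑ k, Y i k * dscl (H i) k (0, s • v)).re) :=
    (ub_const (c := fun _ : I => (2 : ℝ)) ⟨_, fun _ => le_rfl⟩).mul hO (u1c.clm hO Complex.reCLM)
  have u2 : UB (Set.Ioo (-r) r) (fun i s => qf (ricM (H i) (0, s • v)) (Y i)) := by
    simp only [qf_eq_sum]
    refine UB.clm hO ?_ Complex.reCLM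
    refine UB.sum hO Finset.univ fun j _ => UB.sum hO Finset.univ fun k _ => ?_
    exact ((ub_const (c := fun i => conj (Y i j))
      ⟨K, fun i => by rw [RCLike.norm_conj]; exact hK i j⟩).mul hO
        ((W.ub_ric j k).line W.δ_pos hv)).mul hO (ub_const (c := fun i => Y i k) ⟨K, fun i => hK i k⟩)
  have us : UB (Set.Ioo (-r) r) (fun (_ : I) (s : ℝ) => s) :=
    ub_clm (ContinuousLinearMap.id ℝ ℝ) (Metric.isBounded_Ioo _ _)
  have uφ : UB (Set.Ioo (-r) r) (fun i s => Sq (H i) (q i) (0, s • v)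
      + s * (2 * (∑ k, Y i k * dscl (H i) k (0, s • v)).re)
      + s ^ 2 * qf (ricM (H i) (0, s • v)) (Y i)) :=
    (u0.add hO (us.mul hO u1)).add hO ((us.pow hO 2).mul hO u2)
  have hpos : ∀ i, ∀ s ∈ Set.Ioo (-r) r, 0 ≤ Sq (H i) (q i) (0, s • v)
      + s * (2 * (∑ k, Y i k * dscl (H i) k (0, s • v)).re)
      + s ^ 2 * qf (ricM (H i) (0, s • v)) (Y i) := by
    intro i s hs
    have h := W.scalar i (0, s • v) (hline s hs) (fun k => (s : ℂ) * Y i k)
    have e1 : (∑ k, ((s : ℂ) * Y i k) * dscl (H i) k (0, s • v)).re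
        = s * (∑ k, Y i k * dscl (H i) k (0, s • v)).re := by
      rw [← Complex.re_ofReal_mul, Finset.mul_sum]
      simp only [mul_assoc]
    have e2 : qf (ricM (H i) (0, s • v)) (fun k => (s : ℂ) * Y i k)
        = s ^ 2 * qf (ricM (H i) (0, s • v)) (Y i) := by
      have := qf_smul_vec (A := ricM (H i) (0, s • v)) (v := Y i) (s : ℂ)
      rw [Complex.norm_real, Real.norm_eq_abs, sq_abs] at this
      exact this
    rw [e1, e2] at h
    linarith
  have hz : Tendsto (fun i => Sq (H i) (q i) (0, (0 : ℝ) • v)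
      + (0 : ℝ) * (2 * (∑ k, Y i k * dscl (H i) k (0, (0 : ℝ) • v)).re)
      + (0 : ℝ) ^ 2 * qf (ricM (H i) (0, (0 : ℝ) • v)) (Y i)) l (𝓝 0) := by
    refine h0.congr fun i => ?_
    simp
  have main := (almostMin W.r_pos uφ hpos hz).2
  intro ε hε
  filter_upwards [main ε hε] with i hi
  rw [tst_deriv2 W.r_pos (u0.smooth i) (u1.smooth i) (u2.smooth i)] at hi
  -- identification of the three terms
  have c0 : ContDiffAt ℝ 2 (fun w => Sq (H i) (q i) (0, w)) 0 :=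
    id_slice_cd (p := (0, 0)) ((W.ub_Sq).smooth i) h00
  have t0 : fderiv ℝ (fun y => fderiv ℝ (fun w => Sq (H i) (q i) (0, w)) y v) 0 v
      = deriv (deriv fun s : ℝ => Sq (H i) (q i) (0, s • v)) 0 := by
    rw [fderiv_fderiv_eq_deriv_deriv c0 v]
    simp only [zero_add]
  have t1 : deriv (fun s : ℝ => 2 * (∑ k, Y i k * dscl (H i) k (0, s • v)).re) 0
      = 2 * (∑ k, Y i k * fderiv ℝ (fun w => dscl (H i) k (0, w)) 0 v).re := by
    have hk : ∀ k, HasDerivAt (fun s : ℝ => dscl (H i) k (0, s • v))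
        (fderiv ℝ (fun w => dscl (H i) k (0, w)) 0 v) 0 := by
      intro k
      have d1 : DifferentiableAt ℝ (fun w => dscl (H i) k (0, w)) ((0 : ℝ) • v) := by
        rw [zero_smul]
        exact ((contDiffOn_slice (I := Set.Ioo (-δ) δ) (U := Metric.ball (0 : CE ι) r)
          ((W.ub_dscl k).smooth i) h00.1).contDiffAt
            (Metric.isOpen_ball.mem_nhds h00.2)).differentiableAt (by simp)
      have d2 : HasDerivAt (fun s : ℝ => s • v) ((1 : ℝ) • v) 0 :=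
        (hasDerivAt_id (0 : ℝ)).smul_const v
      have d3 := HasFDerivAt.comp_hasDerivAt (l := fun w => dscl (H i) k (0, w)) (0 : ℝ)
        d1.hasFDerivAt d2
      rw [zero_smul, one_smul] at d3
      exact d3
    have hs : HasDerivAt (fun s : ℝ => ∑ k, Y i k * dscl (H i) k (0, s • v))
        (∑ k, Y i k * fderiv ℝ (fun w => dscl (H i) k (0, w)) 0 v) 0 :=
      HasDerivAt.fun_sum fun k _ => (hk k).const_mul (Y i k)
    have hre := Complex.reCLM.hasFDerivAt.comp_hasDerivAt (0 : ℝ) hs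
    exact (hre.const_mul 2).deriv
  rw [t1, zero_smul] at hi
  rw [t0]
  linarith

end test

end Claimed.Agent.R316.SC
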