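import Claimed.Agent.R316.S7.SC.UB
import Claimed.Agent.R316.Pack024
import Claimed.Agent.R316.Base.Metric.Api

/-!
# Row 316, BP-S7-5: an immersed chart carrying a strictly concave function is injective (proved here); it covers a small intrinsic ball (section `cover`, leaf L-S7-5-9, ~500 lines)

Built on helper248's theory of lifts through immersed charts: `S7/Trans/Local.lean` (`Tr7Lift`, `Tr7Lift.eqOn`, `tr7_sub`, `tr7_sub_isLocalHomeomorph`, … : sorry free), `S7/Trans/AbsPath.lean` (`tr7_path_lift`),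
`S7/Trans/Lift.lean` (`tr7_lift`).

SECTION `inj` (PROVED from `tr7_lift`, `exists_crit`, `crit_unique`).  `f` factors through `Φ`, is strictly concave on `ball 0 r` with small gradient at `0`: it has exactly one critical point `z*`.  If `Φ w₁ = Φ w₂`, lift the chart `Φ|ball 0 ρ` through `Φ`
to `F` with `F w₁ = w₂`; `F z*` is a critical point, so `F z* = z* = id z*`; uniqueness of lifts gives `F = id`, `w₂ = w₁`.

SECTION `cover` (leaf L-S7-5-9): PROVED (helper126).  `Base/Metric/Api.lean` (G0), `CM/*`, `S7/Trans/*` may be used as they stand.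
* `local_lower`: `hdist_local_compare` (with `ε = 1 - θ`) in a parametrisation `(Φ, U)` around `z₁` (`hΦ.2 z₁ hz₁`; shrink to a ball: `𝓜.isHol_mono`) and `qf (G Φ z₁) x ≥ c ‖x‖²` (`qf_mono`, `qf_smul`, `qf_one`, `tr7_norm_sq_eq_qf_one`; `Real.sqrt_le_sqrt`, `Real.sqrt_mul_self`).
* `lift_apriori`: `S = {t ∈ Icc 0 τ | θ √c ‖Γ t - Γ 0‖ ≤ ℓ t}`; `IsClosed.Icc_subset_of_forall_mem_nhdsWithin`: closed by continuity of `Γ` on `Icc 0 τ`; if `t ∈ S`, `t < τ`, take `ε` from `local_lower` at `z₁ = Γ t`; for `s > t` close to `t`, `Γ s ∈ ball (Γ t) ε`, so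
  `θ √c ‖Γ s - Γ t‖ ≤ hdist (γ s) (γ t) ≤ ℓ (s - t)`; triangle inequality.
* `exists_lift`.  Fix `θ ∈ (0,1)` with `√c ‖z₀‖ + ℓ / θ < √c r` and `ρ₁ = ‖z₀‖ + ℓ / (θ √c) < r`.  `E = ↥(ball 0 r)`, `X = ↥𝓜.carrier`, `p = tr7_sub hΦ`; `γ' : C(unitInterval, X)`, `t ↦ ⟨γ t, _⟩`; `tr7_path_lift` with the compact set `{e : E | ‖(e : CE ι)‖ ≤ ρ₁}`
  (as in the header of `S7/Trans/Lift.lean`, step 2); a partial lift on `Iic τ` gives `Γ' t = Γ (Set.projIcc 0 1 _ t)`, to which `lift_apriori` applies.  Finally `ζ t = Γ (Set.projIcc 0 1 _ t)`.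
* `hball_subset_image`: `y ∈ hball`; `exists_curve_speed_le` with `hdist < L < √c ρ` gives an `IsC1Curve` with `ambQ ≤ L²`; `hdist (γ s) (γ t) ≤ len γ s t ≤ L |s - t|` (`hdist_le_len`, `hdist_comm`, `intervalIntegral` monotonicity: `len` is `∫ √ambQ`);
  `exists_lift` with `r := ρ`, `z₀ = 0` (`tr7_locBihol_mono`).
-/

set_option autoImplicit false
set_option linter.unusedSectionVars false
open scoped ContDiff ComplexOrder Topology

namespace Claimed.Agent.R316.SC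

section inj

variable {V : Type} [NormedAddCommGroup V] [NormedSpace ℝ V]
variable {ι : Type} [Fintype ι] [DecidableEq ι]
variable {𝓜 : CMfd V ι} {G : HFam V ι} {Φ : CE ι → V}

/-- being a critical point is intrinsic (`f` factors through `Φ`). -/
theorem crit_of_eq {B : Set (CE ι)} (hΦ : IsLocBihol 𝓜 Φ B) {f : CE ι → ℝ}
    (hfac : ∀ z ∈ B, ∀ z' ∈ B, Φ z = Φ z' → f z = f z') {z₁ z₂ : CE ι}
    (h1 : z₁ ∈ B) (h2 : z₂ ∈ B) (h : Φ z₁ = Φ z₂) (hd : DifferentiableAt ℝ f z₂)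
    (h0 : fderiv ℝ f z₂ = 0) : fderiv ℝ f z₁ = 0 := by
  obtain ⟨U₁, hU₁B, hz₁, hU₁⟩ := hΦ.2 z₁ h1
  obtain ⟨U₂, hU₂B, hz₂, hU₂⟩ := hΦ.2 z₂ h2
  have hov : z₁ ∈ U₁ ∩ Φ ⁻¹' (Φ '' U₂) := ⟨hz₁, ⟨z₂, hz₂, h.symm⟩⟩
  have hτ : (Function.invFunOn Φ U₂ ∘ Φ) z₁ = z₂ := CMfd.trans_eq hU₁ hU₂ hz₂ h
  have hev : f =ᶠ[𝓝 z₁] f ∘ (Function.invFunOn Φ U₂ ∘ Φ) := by
    filter_upwards [(CMfd.isOpen_overlap hU₁ hU₂).mem_nhds hov] with z hz
    exact hfac z (hU₁B hz.1) _ (hU₂B (CMfd.trans_mem hU₁ hU₂ hz)) (CMfd.trans_spec hU₁ hU₂ hz).symm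
  rw [hev.fderiv_eq]
  have hτd := CMfd.trans_hasFDerivAt_real hU₁ hU₂ hov
  have hd' : HasFDerivAt f (0 : CE ι →L[ℝ] ℝ) ((Function.invFunOn Φ U₂ ∘ Φ) z₁) := by
    rw [hτ, ← h0]; exact hd.hasFDerivAt
  have h3 := hd'.comp z₁ hτd
  rw [h3.fderiv]
  simp

/-- **injectivity** of an immersed chart carrying a strictly concave function with small gradient at the centre. -/
theorem injOn_of_concave (hH : IsHForm 𝓜 G) {r c C a η ρ : ℝ}
    (hΦ : IsLocBihol 𝓜 Φ (Metric.ball 0 r)) (hc : 0 < c)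
    (hlow : ∀ w ∈ Metric.ball (0 : CE ι) r, leM (cI c) (G Φ w))
    (hup : ∀ w ∈ Metric.ball (0 : CE ι) r, leM (G Φ w) (cI C))
    {f : CE ι → ℝ} (hfac : ∀ z ∈ Metric.ball (0 : CE ι) r, ∀ z' ∈ Metric.ball (0 : CE ι) r,
      Φ z = Φ z' → f z = f z')
    (hf : ContDiffOn ℝ 2 f (Metric.ball 0 r)) (ha : 0 < a)
    (hconc : ∀ w ∈ Metric.ball (0 : CE ι) r, ∀ v : CE ι,
      fderiv ℝ (fun y => fderiv ℝ f y v) w v ≤ - a * ‖v‖ ^ 2)
    (hη : ‖fderiv ℝ f 0‖ ≤ η) (hρ0 : 0 < ρ) (hρ : 2 * η < a * ρ)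
    (hρr : ρ + Real.sqrt (C / c) * (2 * ρ) < r) :
    Set.InjOn Φ (Metric.ball 0 ρ) := by
  have hs : 0 ≤ Real.sqrt (C / c) * (2 * ρ) := by positivity
  have hρr' : ρ < r := by linarith
  obtain ⟨zs, hzs, hcrit⟩ := exists_crit hf ha hconc hη hρ hρ0 hρr'
  have hsub : Metric.ball (0 : CE ι) ρ ⊆ Metric.ball 0 r := Metric.ball_subset_ball hρr'.le
  have hΨ : IsLocBihol 𝓜 Φ (Metric.ball 0 ρ) := tr7_locBihol_mono hΦ Metric.isOpen_ball hsub
  intro w₁ hw₁ w₂ hw₂ hw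
  have hd : ∀ z ∈ Metric.ball (0 : CE ι) ρ, ‖z - w₁‖ ≤ 2 * ρ := by
    intro z hz
    have h1 : ‖z‖ < ρ := by simpa using hz
    have h2 : ‖w₁‖ < ρ := by simpa using hw₁
    have := norm_sub_le z w₁
    linarith
  have hsmall : ‖w₂‖ + Real.sqrt (C / c) * (2 * ρ) < r := by
    have h2 : ‖w₂‖ < ρ := by simpa using hw₂
    linarith
  obtain ⟨F, hF, hF1, _⟩ := tr7_lift hH hΦ hΨ (convex_ball _ _) hc hlow
    (fun z hz => hup z (hsub hz)) hw₁ hw.symm hd hsmall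
  have hFz : F zs ∈ Metric.ball (0 : CE ι) r := hF.maps hzs
  have hdz : DifferentiableAt ℝ f zs :=
    ((hf zs (hsub hzs)).contDiffAt (Metric.isOpen_ball.mem_nhds (hsub hzs))).differentiableAt
      (by norm_num)
  have h1 : fderiv ℝ f (F zs) = 0 := crit_of_eq hΦ hfac hFz (hsub hzs) (hF.eq zs hzs) hdz hcrit
  have h2 : F zs = zs := crit_unique hf ha hconc hFz (hsub hzs) h1 hcrit
  have hid : Tr7Lift Φ (Metric.ball 0 r) Φ (Metric.ball 0 ρ) id :=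
    ⟨continuousOn_id, fun z hz => hsub hz, fun _ _ => rfl⟩
  have h3 := Tr7Lift.eqOn hΦ hF hid (convex_ball _ _).isPreconnected hzs h2 hw₁
  rw [hF1] at h3
  exact h3.symm

end inj

section cover

variable {V : Type} [NormedAddCommGroup V] [NormedSpace ℝ V] [FiniteDimensional ℝ V]
variable {ι : Type} [Fintype ι] [DecidableEq ι]
variable {𝓜 : CMfd V ι} {G : HFam V ι} {Φ : CE ι → V} {B : Set (CE ι)}

/-- local lower bound of the distance in an immersed chart. -/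
theorem local_lower (hm : IsMetric 𝓜 G) (hΦ : IsLocBihol 𝓜 Φ B) {c : ℝ} (hc : 0 < c)
    (hlow : ∀ w ∈ B, leM (cI c) (G Φ w)) {z₁ : CE ι} (hz₁ : z₁ ∈ B) {θ : ℝ} (hθ : θ < 1) :
    ∃ ε > 0, Metric.ball z₁ ε ⊆ B ∧
      ∀ z ∈ Metric.ball z₁ ε, ∀ w ∈ Metric.ball z₁ ε,
        θ * Real.sqrt c * ‖z - w‖ ≤ hdist 𝓜 G (Φ z) (Φ w) := by
  obtain ⟨U, hUB, hzU, hU⟩ := hΦ.2 z₁ hz₁
  obtain ⟨δ, hδ, hδU, H⟩ := hdist_local_compare hm hU hzU (ε := 1 - θ) (by linarith)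
  refine ⟨δ, hδ, hδU.trans hUB, fun z hz w hw => ?_⟩
  rcases le_or_gt θ 0 with h0 | h0
  · have h1 : θ * Real.sqrt c * ‖z - w‖ ≤ 0 :=
      mul_nonpos_of_nonpos_of_nonneg (mul_nonpos_of_nonpos_of_nonneg h0 (Real.sqrt_nonneg _))
        (norm_nonneg _)
    exact h1.trans (hdist_nonneg _ _ _ _)
  · have h1 := (H z hz w hw).1
    have h2 : c * ‖z - w‖ ^ 2 ≤ qf (G Φ z₁) (z - w) := by
      have h3 := qf_mono (hlow z₁ hz₁) (fun j => (z - w) j)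
      unfold cI at h3
      rw [qf_smul, ← tr7_norm_sq_eq_qf_one] at h3
      exact h3
    have h4 : Real.sqrt c * ‖z - w‖ ≤ Real.sqrt (qf (G Φ z₁) (z - w)) := by
      have : Real.sqrt c * ‖z - w‖ = Real.sqrt (c * ‖z - w‖ ^ 2) := by
        rw [Real.sqrt_mul hc.le, Real.sqrt_sq (norm_nonneg _)]
      rw [this]
      exact Real.sqrt_le_sqrt h2
    have h5 := mul_le_mul_of_nonneg_left h4 h0.le
    have h6 : (1 - (1 - θ)) = θ := by ring
    rw [h6] at h1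
    calc θ * Real.sqrt c * ‖z - w‖ = θ * (Real.sqrt c * ‖z - w‖) := by ring
      _ ≤ _ := h5.trans h1

/-- a priori estimate for (partial) lifts of a Lipschitz curve. -/
theorem lift_apriori (hm : IsMetric 𝓜 G) (hΦ : IsLocBihol 𝓜 Φ B) {c : ℝ} (hc : 0 < c)
    (hlow : ∀ w ∈ B, leM (cI c) (G Φ w)) {θ : ℝ} (hθ : θ < 1) {γ : ℝ → V} {ℓ τ : ℝ}
    (hlip : ∀ s ∈ Set.Icc (0 : ℝ) τ, ∀ t ∈ Set.Icc (0 : ℝ) τ, hdist 𝓜 G (γ s) (γ t) ≤ ℓ * |s - t|)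
    {Γ : ℝ → CE ι} (hΓ : Tr7Lift Φ B γ (Set.Icc 0 τ) Γ) :
    ∀ t ∈ Set.Icc (0 : ℝ) τ, θ * Real.sqrt c * ‖Γ t - Γ 0‖ ≤ ℓ * t := by
  intro t ht
  have h0τ : (0 : ℝ) ∈ Set.Icc 0 τ := ⟨le_rfl, ht.1.trans ht.2⟩
  rcases le_or_gt θ 0 with h0 | h0
  · have h1 : θ * Real.sqrt c * ‖Γ t - Γ 0‖ ≤ 0 :=
      mul_nonpos_of_nonpos_of_nonneg (mul_nonpos_of_nonpos_of_nonneg h0 (Real.sqrt_nonneg _))
        (norm_nonneg _)
    have h2 := hlip 0 h0τ t ht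
    rw [zero_sub, abs_neg, abs_of_nonneg ht.1] at h2
    exact h1.trans ((hdist_nonneg _ _ _ _).trans h2)
  · have hk : 0 ≤ θ * Real.sqrt c := mul_nonneg h0.le (Real.sqrt_nonneg _)
    set S : Set ℝ := {t | θ * Real.sqrt c * ‖Γ t - Γ 0‖ ≤ ℓ * t} with hS
    have hsub : Set.Icc 0 τ ⊆ S := by
      refine IsClosed.Icc_subset_of_forall_mem_nhdsWithin ?_ ?_ ?_
      · have hc1 : ContinuousOn (fun t => ℓ * t - θ * Real.sqrt c * ‖Γ t - Γ 0‖) (Set.Icc 0 τ) :=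
          (continuousOn_const.mul continuousOn_id).sub
            (continuousOn_const.mul (hΓ.cont.sub continuousOn_const).norm)
        have := hc1.preimage_isClosed_of_isClosed isClosed_Icc (isClosed_Ici (a := (0 : ℝ)))
        convert this using 1
        ext t
        simp only [hS, Set.mem_inter_iff, Set.mem_ofPred_eq, Set.mem_preimage, Set.mem_Ici,
          sub_nonneg]
        tauto
      · simp [hS]
      · intro x hx
        have hxI : x ∈ Set.Icc 0 τ := ⟨hx.2.1, hx.2.2.le⟩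
        obtain ⟨ε, hε, -, Hε⟩ := local_lower hm hΦ hc hlow (hΓ.maps hxI) hθ
        have hle : 𝓝[>] x ≤ 𝓝[Set.Icc 0 τ] x := by
          rw [← nhdsWithin_Ioo_eq_nhdsGT hx.2.2]
          exact nhdsWithin_mono x fun s hs => ⟨hx.2.1.trans hs.1.le, hs.2.le⟩
        have h1 : ∀ᶠ s in 𝓝[>] x, Γ s ∈ Metric.ball (Γ x) ε :=
          ((hΓ.cont x hxI).mono_left hle) (Metric.ball_mem_nhds _ hε)
        filter_upwards [h1, Ioo_mem_nhdsGT hx.2.2] with s hs1 hs2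
        have hsI : s ∈ Set.Icc 0 τ := ⟨hx.2.1.trans hs2.1.le, hs2.2.le⟩
        have h2 := Hε (Γ s) hs1 (Γ x) (Metric.mem_ball_self hε)
        rw [hΓ.eq s hsI, hΓ.eq x hxI] at h2
        have h3 := hlip s hsI x hxI
        rw [abs_of_pos (sub_pos.2 hs2.1)] at h3
        have h4 : ‖Γ s - Γ 0‖ ≤ ‖Γ s - Γ x‖ + ‖Γ x - Γ 0‖ := by
          have := norm_add_le (Γ s - Γ x) (Γ x - Γ 0)
          simpa using this
        have h5 := mul_le_mul_of_nonneg_left h4 hk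
        have h6 : θ * Real.sqrt c * ‖Γ x - Γ 0‖ ≤ ℓ * x := hx.1
        show θ * Real.sqrt c * ‖Γ s - Γ 0‖ ≤ ℓ * s
        nlinarith
    exact hsub ht

open scoped unitInterval in
/-- **lifting of Lipschitz curves**: a curve of length `ℓ` starting at `Φ z₀` lifts as long as `‖z₀‖ + ℓ / √c < r`. -/
theorem exists_lift (hm : IsMetric 𝓜 G) {r c : ℝ}
    (hΦ : IsLocBihol 𝓜 Φ (Metric.ball 0 r)) (hc : 0 < c)
    (hlow : ∀ w ∈ Metric.ball (0 : CE ι) r, leM (cI c) (G Φ w))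
    {γ : ℝ → V} {ℓ : ℝ} (hγc : ContinuousOn γ (Set.Icc 0 1))
    (hγm : ∀ t ∈ Set.Icc (0 : ℝ) 1, γ t ∈ 𝓜.carrier)
    (hlip : ∀ s ∈ Set.Icc (0 : ℝ) 1, ∀ t ∈ Set.Icc (0 : ℝ) 1,
      hdist 𝓜 G (γ s) (γ t) ≤ ℓ * |s - t|)
    {z₀ : CE ι} (hz₀ : Φ z₀ = γ 0) (hr : Real.sqrt c * ‖z₀‖ + ℓ < Real.sqrt c * r) :
    ∃ ζ : ℝ → CE ι, Tr7Lift Φ (Metric.ball 0 r) γ (Set.Icc 0 1) ζ ∧ ζ 0 = z₀ := by
  classical
  have hsc : 0 < Real.sqrt c := Real.sqrt_pos.2 hc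
  have hℓ : 0 ≤ ℓ := by
    have := hlip 0 ⟨le_rfl, zero_le_one⟩ 1 ⟨zero_le_one, le_rfl⟩
    rw [zero_sub, abs_neg, abs_one, mul_one] at this
    exact (hdist_nonneg _ _ _ _).trans this
  set δ : ℝ := Real.sqrt c * r - Real.sqrt c * ‖z₀‖ - ℓ with hδ
  have hδ0 : 0 < δ := by rw [hδ]; linarith
  set θ : ℝ := (ℓ + δ / 2) / (ℓ + δ) with hθdef
  have hθ0 : 0 < θ := by positivity
  have hθ1 : θ < 1 := by
    rw [hθdef, div_lt_one (by positivity)]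
    linarith
  have hℓθ : ℓ / θ < ℓ + δ := by
    rw [div_lt_iff₀ hθ0, hθdef, mul_div_cancel₀ _ (by positivity : ℓ + δ ≠ 0)]
    linarith
  set ρ₁ : ℝ := ‖z₀‖ + ℓ / (θ * Real.sqrt c) with hρ₁
  have hρ₁r : ρ₁ < r := by
    have h1 : ℓ / (θ * Real.sqrt c) = ℓ / θ / Real.sqrt c := by rw [div_div]
    have h2 : ℓ / θ / Real.sqrt c < (ℓ + δ) / Real.sqrt c := div_lt_div_of_pos_right hℓθ hsc
    have h3 : (ℓ + δ) / Real.sqrt c = r - ‖z₀‖ := by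
      rw [hδ]
      field_simp
      ring
    rw [hρ₁, h1]
    linarith
  have hz₀r : z₀ ∈ Metric.ball (0 : CE ι) r := by
    rw [mem_ball_zero_iff]
    have : 0 ≤ ℓ / (θ * Real.sqrt c) := by positivity
    linarith
  have hp : IsLocalHomeomorph (tr7_sub hΦ) := tr7_sub_isLocalHomeomorph hΦ
  let e0 : Metric.ball (0 : CE ι) r := ⟨z₀, hz₀r⟩
  let γ' : C(I, 𝓜.carrier) :=
    ⟨fun t => ⟨γ (t : ℝ), hγm _ t.2⟩,
      Continuous.subtype_mk (hγc.comp_continuous continuous_subtype_val (fun t => t.2)) _⟩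
  let Cc : Set (Metric.ball (0 : CE ι) r) := {e | ‖(e : CE ι)‖ ≤ ρ₁}
  have hCc : IsCompact Cc := by
    rw [Topology.IsEmbedding.subtypeVal.isCompact_iff]
    have : Subtype.val '' Cc = Metric.closedBall (0 : CE ι) ρ₁ := by
      ext x
      constructor
      · rintro ⟨e, he, rfl⟩
        exact mem_closedBall_zero_iff.2 he
      · intro hx
        rw [mem_closedBall_zero_iff] at hx
        exact ⟨⟨x, mem_ball_zero_iff.2 (hx.trans_lt hρ₁r)⟩, hx, rfl⟩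
    rw [this]
    exact isCompact_closedBall _ _
  -- a partial lift in the subtype gives a `Tr7Lift`
  have hconv : ∀ (τ : I) (Γ : I → Metric.ball (0 : CE ι) r), ContinuousOn Γ (Set.Iic τ) →
      (∀ t ≤ τ, tr7_sub hΦ (Γ t) = γ' t) →
      Tr7Lift Φ (Metric.ball 0 r) γ (Set.Icc 0 (τ : ℝ))
        (fun x => (Γ (Set.projIcc (0 : ℝ) 1 zero_le_one x) : CE ι)) := by
    intro τ Γ hΓc hΓl
    have hproj : ∀ x ∈ Set.Icc (0 : ℝ) τ, ∃ hx : x ∈ Set.Icc (0 : ℝ) 1,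
        Set.projIcc (0 : ℝ) 1 zero_le_one x = ⟨x, hx⟩ := fun x hx =>
      ⟨⟨hx.1, hx.2.trans τ.2.2⟩, Set.projIcc_of_mem _ ⟨hx.1, hx.2.trans τ.2.2⟩⟩
    refine ⟨continuous_subtype_val.comp_continuousOn
      (hΓc.comp continuous_projIcc.continuousOn ?_), fun x _ => (Γ _).2, ?_⟩
    · intro x hx
      obtain ⟨hx1, hx2⟩ := hproj x hx
      rw [hx2]
      exact hx.2
    · intro x hx
      obtain ⟨hx1, hx2⟩ := hproj x hx
      have := congrArg Subtype.val (hΓl ⟨x, hx1⟩ hx.2)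
      rw [hx2]
      exact this
  obtain ⟨Γ, hΓ0, hΓ⟩ : ∃ Γ : C(I, Metric.ball (0 : CE ι) r), Γ 0 = e0 ∧
      ∀ t, tr7_sub hΦ (Γ t) = γ' t := by
    refine tr7_path_lift hp γ' e0 ?_ Cc hCc ?_
    · apply Subtype.ext
      show Φ z₀ = γ ((0 : I) : ℝ)
      simp [hz₀]
    · intro τ Γ hΓc hΓ0 hΓl t ht
      have hlift := hconv τ Γ hΓc hΓl
      have hb := lift_apriori hm hΦ hc hlow hθ1
        (fun s hs t ht => hlip s ⟨hs.1, hs.2.trans τ.2.2⟩ t ⟨ht.1, ht.2.trans τ.2.2⟩) hlift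
        t ⟨t.2.1, ht⟩
      have e1 : Set.projIcc (0 : ℝ) 1 zero_le_one (t : ℝ) = t := Set.projIcc_val _ t
      have e2 : Set.projIcc (0 : ℝ) 1 zero_le_one (0 : ℝ) = 0 := Set.projIcc_left _
      simp only [e1, e2, hΓ0] at hb
      show ‖(Γ t : CE ι)‖ ≤ ρ₁
      have hb' : θ * Real.sqrt c * ‖(Γ t : CE ι) - z₀‖ ≤ ℓ * t := hb
      have h3 : ℓ * t ≤ ℓ := by
        have := mul_le_mul_of_nonneg_left t.2.2 hℓ
        linarith
      have h4 : ‖(Γ t : CE ι) - z₀‖ ≤ ℓ / (θ * Real.sqrt c) := by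
        rw [le_div_iff₀ (by positivity)]
        linarith
      have h5 : ‖(Γ t : CE ι)‖ ≤ ‖z₀‖ + ‖(Γ t : CE ι) - z₀‖ := by
        have := norm_add_le z₀ ((Γ t : CE ι) - z₀)
        simpa using this
      linarith
  refine ⟨fun x => (Γ (Set.projIcc (0 : ℝ) 1 zero_le_one x) : CE ι), ?_, ?_⟩
  · have := hconv 1 Γ Γ.continuous.continuousOn (fun t _ => hΓ t)
    simpa using this
  · show (Γ (Set.projIcc (0 : ℝ) 1 zero_le_one 0) : CE ι) = z₀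
    rw [Set.projIcc_left]
    have : Γ 0 = e0 := hΓ0
    exact congrArg Subtype.val this

/-- **covering**: an immersed chart covers a small intrinsic ball. -/
theorem hball_subset_image (hm : IsMetric 𝓜 G) (hconn : IsConnected 𝓜.carrier) {r c ρ : ℝ}
    (hΦ : IsLocBihol 𝓜 Φ (Metric.ball 0 r)) (hc : 0 < c)
    (hlow : ∀ w ∈ Metric.ball (0 : CE ι) r, leM (cI c) (G Φ w)) (hρ0 : 0 < ρ) (hρr : ρ ≤ r) :
    hball 𝓜 G (Φ 0) (Real.sqrt c * ρ) ⊆ Φ '' Metric.ball 0 ρ := by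
  intro y hy
  have hsub : Metric.ball (0 : CE ι) ρ ⊆ Metric.ball 0 r := Metric.ball_subset_ball hρr
  have hΦρ : IsLocBihol 𝓜 Φ (Metric.ball 0 ρ) := tr7_locBihol_mono hΦ Metric.isOpen_ball hsub
  have h0 : Φ 0 ∈ 𝓜.carrier := tr7_mem_carrier hΦρ (Metric.mem_ball_self hρ0)
  obtain ⟨L, hL1, hL2⟩ := exists_between hy.2
  have hL0 : 0 ≤ L := (hdist_nonneg _ _ _ _).trans hL1.le
  obtain ⟨γ, hγ, hγ0, hγ1, -, hsp⟩ := exists_curve_speed_le hm hconn h0 hy.1 hL1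
  have hlip0 : ∀ s t : ℝ, s ≤ t → hdist 𝓜 G (γ s) (γ t) ≤ L * (t - s) := by
    intro s t hst
    refine (hdist_le_len hm hγ hst).trans ?_
    have h1 : len 𝓜 G γ s t ≤ ∫ _ in s..t, L :=
      intervalIntegral.integral_mono_on hst
        ((hγ.continuous_speed hm.toIsHForm).intervalIntegrable _ _)
        (continuous_const.intervalIntegrable _ _)
        fun u _ => (Real.sqrt_le_sqrt (hsp u)).trans (by rw [Real.sqrt_sq hL0])
    rw [intervalIntegral.integral_const, smul_eq_mul] at h1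
    linarith
  have hlip : ∀ s ∈ Set.Icc (0 : ℝ) 1, ∀ t ∈ Set.Icc (0 : ℝ) 1,
      hdist 𝓜 G (γ s) (γ t) ≤ L * |s - t| := by
    intro s _ t _
    rcases le_total s t with h | h
    · rw [abs_sub_comm, abs_of_nonneg (sub_nonneg.2 h)]
      exact hlip0 s t h
    · rw [abs_of_nonneg (sub_nonneg.2 h), hdist_comm hm]
      exact hlip0 t s h
  obtain ⟨ζ, hζ, -⟩ := exists_lift hm hΦρ hc (fun w hw => hlow w (hsub hw))
    hγ.1.continuous.continuousOn (fun t _ => hγ.2 t) hlip (z₀ := 0) hγ0.symm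
    (by rw [norm_zero, mul_zero, zero_add]; exact hL2)
  have h1 : (1 : ℝ) ∈ Set.Icc (0 : ℝ) 1 := ⟨zero_le_one, le_rfl⟩
  exact ⟨ζ 1, hζ.maps h1, by rw [hζ.eq 1 h1, hγ1]⟩

end cover

end Claimed.Agent.R316.SC
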