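import Claimed.Agent.R316.S7.SC.Win
import Claimed.Agent.R316.Pack024
import Claimed.Agent.R316.S7.H1.FlowChart

/-!
# Row 316, BP-S7-5, leaves L-S7-5-14 (section `pointwise`) and L-S7-5-15 (section `family`): the rescaled flows form an `IsWin` (~800 + ~600 lines)

BOTH SECTIONS PROVED (helper126), sorry free; auxiliary lemmas: prefix `rs_`.
`S7/H1/FlowChart.lean` (`fc_*`), `S7/H1/Param.lean`, `S7/Trans/Local.lean` (`tr7_*`), `CM/Std.lean` (`IsLocBihol.*`), `CW/*`, `CM/*` may be used as they stand.  charts.tex l.640-668, 686-704.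

`rsc D t₀ lam Φ (z, w) = lam • h_{t₀ + z/lam}(Φ w)`.  Standing hypotheses of section `pointwise`: `Φ` an immersed chart on `ball 0 r`, `0 < lam`, `δ / lam < t₀`, `p = (z, w) ∈ dom δ r`; write `t = t₀ + z / lam > 0`.
Everything is LOCAL: choose `U ∋ w`, `U ⊆ ball 0 r`, `𝓜.IsHol Φ U` (`hΦ.2 w hw`) and use the `fc_*` lemmas on `U`.
* `rsc_contDiffOn`: `ContDiffAt` at every point: `fc_contDiffOn_h` on `Ici 0 ×ˢ U` (a neighbourhood of `(t, w)` since `t > 0`) composed with the affine map `(z, w) ↦ (t₀ + z / lam, w)`.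
* `ricM_rsc`: near `w`, `log det (lam • h) = n log lam + log det h` (`Matrix.det_smul`, `Real.log_mul`, positivity of `det h`: `posDef_det_re_pos`, `det_smul_real_re`); `levi_congr`, `levi_add_const` (or `levi_add`, `levi_const`); `FlowData.ric`, `ricF`.
* `rsc_flow`: `fc_dt_h` and the chain rule `s ↦ t₀ + s / lam` (`HasDerivAt.scomp` / `HasDerivAt.comp`): `lam * (lam⁻¹ * (- ric))`.
* `scl_rsc`: `(lam • h)⁻¹ = lam⁻¹ • h⁻¹` (`Matrix.inv_smul`), `fc_R_chart`, `Rc`.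
* `sclT_rsc`: `scl_rsc` for all `s` near `z` (`Filter.EventuallyEq.deriv_eq`), chain rule; differentiability of `s ↦ D.R s (Φ w)` at `t > 0` from `D.R_smooth Φ U` (`contDiffOn_timeline`), or use `deriv_comp_…`/`deriv_const_mul`-free: `deriv (fun s => F (t₀ + s / lam)) z = deriv F t / lam` holds for every `F`
  (`deriv_comp_add_const`, `deriv_comp_mul_left`-type lemmas hold without differentiability).
* `Sq_rsc`: `q + z = lam t` with `q = t₀ lam`.   * `dscl_rsc`: `dz_mul_const`/`dz_congr` on the open ball.   * `ricT_rsc`: `ricM_rsc` for all `s` near `z`, `FlowData.ricDt`.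

Section `family`.
* `rsc_scalar`: `Hk.scalar t _ Φ U _ w _ (fun k => lam * X k)` divided by `lam²` (`qf_smul_vec` with the real scalar `lam`).
* `rsc_matrix`: `Hk.matrix t₀ _ Φ U _ 0 _`; `lam • h = 1` gives `h⁻¹ = lam • 1`; multiply the positive semidefinite matrix by `lam⁻¹` (`posSemidef_smul_real`).
* `exists_win`.  Unpack `W = ⟨ti, δ₀, b, …⟩`.  Take `ρ = 1`: `Λ, i₀`; `Λ' = max Λ 1`.  `UC 1 δ₀ Λ'` gives `r c C Ck`.  For `i ≥ i₀` apply it to `t₀ = ti i`, `lam = D.R (ti i) o > 0` (from `4 δ₀ < ti i * R`, `0 < ti i`), `p = o`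
  (`t ∈ Icc (t₀ - δ₀/lam) (t₀ + δ₀/lam)` is `t₀ + z/lam` with `z = (t - t₀) lam ∈ Icc (-δ₀) δ₀`); `choose` the charts; re-index by `i ↦ i + i₀` (`Filter.tendsto_add_atTop_iff_nat`).
  `δ = δ₀ / 2`.  `ub`: `rsc_contDiffOn` and the bounds `Ck` (`Matrix.smul_apply`, `smul_eq_mul`).  `q_gt`: `2 δ = δ₀ < 4 δ₀ < q`.  `ric_lower`: the 4th clause of `Windows` in a parametrisation `(Φ, U ∋ 0)`, with `lam • h = 1`.
  The limit: `Sq_rsc` at `(0,0)` is the last clause of `Windows`.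
-/

set_option autoImplicit false
set_option linter.unusedSectionVars false
open scoped ContDiff ComplexOrder Topology Matrix
open MeasureTheory Filter

namespace Claimed.Agent.R316.SC

variable {V : Type} [NormedAddCommGroup V] [NormedSpace ℝ V] [FiniteDimensional ℝ V]
  [MeasurableSpace V] [BorelSpace V]
variable {n : ℕ} {𝓜 : CMfd V (Fin n)} {g : HFam V (Fin n)} {o : V}

/-- the rescaled flow in the chart `Φ`: `(z, w) ↦ lam • h_{t₀ + z / lam}(Φ w)`. -/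
noncomputable def rsc (D : FlowData 𝓜 g o) (t₀ lam : ℝ) (Φ : CE (Fin n) → V)
    (p : ℝ × CE (Fin n)) : Matrix (Fin n) (Fin n) ℂ :=
  ((lam : ℝ) : ℂ) • D.h (t₀ + p.1 / lam) Φ p.2

section pointwise

variable (D : FlowData 𝓜 g o) {Φ : CE (Fin n) → V} {t₀ lam δ r : ℝ} {p : ℝ × CE (Fin n)}

theorem rsc_time_pos (hlam : 0 < lam) (ht₀ : δ / lam < t₀) (hp : p ∈ dom (ι := Fin n) δ r) :
    0 < t₀ + p.1 / lam := by
  have h1 : -δ < p.1 := hp.1.1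
  have h2 : -δ / lam < p.1 / lam := div_lt_div_of_pos_right h1 hlam
  have h3 : -δ / lam = -(δ / lam) := neg_div _ _
  linarith

/-- the affine time change. -/
theorem rs_hasDerivAt_time (t₀ lam z : ℝ) : HasDerivAt (fun s : ℝ => t₀ + s / lam) lam⁻¹ z := by
  have h := ((hasDerivAt_id z).div_const lam).const_add t₀
  simpa [one_div] using h

theorem rs_mem_dom_time (hp : p ∈ dom (ι := Fin n) δ r) :
    ∀ᶠ s in 𝓝 p.1, ((s, p.2) : ℝ × CE (Fin n)) ∈ dom (ι := Fin n) δ r := by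
  filter_upwards [isOpen_Ioo.mem_nhds hp.1] with s hs
  exact ⟨hs, hp.2⟩

theorem rs_mem_dom_space (hp : p ∈ dom (ι := Fin n) δ r) :
    ∀ᶠ w in 𝓝 p.2, ((p.1, w) : ℝ × CE (Fin n)) ∈ dom (ι := Fin n) δ r := by
  filter_upwards [Metric.isOpen_ball.mem_nhds hp.2] with w hw
  exact ⟨hp.1, hw⟩

theorem rsc_contDiffOn (hg : IsMetric 𝓜 g) (hΦ : IsLocBihol 𝓜 Φ (Metric.ball 0 r)) (hlam : 0 < lam)
    (ht₀ : δ / lam < t₀) (j l : Fin n) :
    ContDiffOn ℝ ∞ (fun p => rsc D t₀ lam Φ p j l) (dom δ r) := by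
  intro p hp
  obtain ⟨U, -, hpU, hU⟩ := hΦ.2 p.2 hp.2
  have ht := rsc_time_pos hlam ht₀ hp
  have h1 : ContDiffAt ℝ ∞ (fun q : ℝ × CE (Fin n) => D.h q.1 Φ q.2 j l)
      (t₀ + p.1 / lam, p.2) :=
    (fc_contDiffOn_h D hg hU j l).contDiffAt
      (prod_mem_nhds (Ici_mem_nhds ht) ((CMfd.isOpen_dom hU).mem_nhds hpU))
  have h2 : ContDiffAt ℝ ∞ (fun q : ℝ × CE (Fin n) => (t₀ + q.1 / lam, q.2)) p :=
    (contDiffAt_const.add (contDiffAt_fst.div_const lam)).prodMk contDiffAt_snd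
  have h3 := h1.comp p h2
  have h4 : ContDiffAt ℝ ∞ (fun q => rsc D t₀ lam Φ q j l) p := by
    have h5 := (contDiffAt_const (c := ((lam : ℝ) : ℂ))).mul h3
    exact h5
  exact h4.contDiffWithinAt

theorem ricM_rsc (hg : IsMetric 𝓜 g) (hΦ : IsLocBihol 𝓜 Φ (Metric.ball 0 r)) (hlam : 0 < lam)
    (ht₀ : δ / lam < t₀) (hp : p ∈ dom (ι := Fin n) δ r) :
    ricM (rsc D t₀ lam Φ) p = D.ric (t₀ + p.1 / lam) Φ p.2 := by
  obtain ⟨U, -, hpU, hU⟩ := hΦ.2 p.2 hp.2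
  have ht := rsc_time_pos hlam ht₀ hp
  show - levi (fun y => Real.log (rsc D t₀ lam Φ (p.1, y)).det.re) p.2
    = - levi (fun w => Real.log (D.h (t₀ + p.1 / lam) Φ w).det.re) p.2
  congr 1
  rw [← levi_add_const (f := fun w => Real.log (D.h (t₀ + p.1 / lam) Φ w).det.re)
    (Real.log (lam ^ Fintype.card (Fin n)))]
  apply levi_congr
  filter_upwards [(CMfd.isOpen_dom hU).mem_nhds hpU] with w hw
  show Real.log ((((lam : ℝ) : ℂ) • D.h (t₀ + p.1 / lam) Φ w).det.re) = _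
  rw [det_smul_real_re, Real.log_mul (pow_pos hlam _).ne'
    (posDef_det_re_pos (fc_posDef D hU ht.le hw)).ne', add_comm]

theorem rsc_flow (hg : IsMetric 𝓜 g) (hΦ : IsLocBihol 𝓜 Φ (Metric.ball 0 r)) (hlam : 0 < lam)
    (ht₀ : δ / lam < t₀) (hp : p ∈ dom (ι := Fin n) δ r) (j l : Fin n) :
    HasDerivAt (fun s => rsc D t₀ lam Φ (s, p.2) j l) (- ricM (rsc D t₀ lam Φ) p j l) p.1 := by
  obtain ⟨U, -, hpU, hU⟩ := hΦ.2 p.2 hp.2
  have ht := rsc_time_pos hlam ht₀ hp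
  rw [ricM_rsc D hg hΦ hlam ht₀ hp]
  have h1 := fc_dt_h D hg hU ht hpU j l
  have h2 := h1.scomp p.1 (rs_hasDerivAt_time t₀ lam p.1)
  have h3 := h2.const_mul ((lam : ℝ) : ℂ)
  have e : ((lam : ℝ) : ℂ) * (lam⁻¹ • - D.ric (t₀ + p.1 / lam) Φ p.2 j l)
      = - D.ric (t₀ + p.1 / lam) Φ p.2 j l := by
    rw [Complex.real_smul, ← mul_assoc, ← Complex.ofReal_mul, mul_inv_cancel₀ hlam.ne']
    simp
  rw [e] at h3
  exact h3

theorem scl_rsc (hg : IsMetric 𝓜 g) (hΦ : IsLocBihol 𝓜 Φ (Metric.ball 0 r)) (hlam : 0 < lam)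
    (ht₀ : δ / lam < t₀) (hp : p ∈ dom (ι := Fin n) δ r) :
    scl (rsc D t₀ lam Φ) p = D.R (t₀ + p.1 / lam) (Φ p.2) / lam := by
  obtain ⟨U, -, hpU, hU⟩ := hΦ.2 p.2 hp.2
  have ht := rsc_time_pos hlam ht₀ hp
  rw [fc_R_chart D hU ht.le hpU]
  show ((rsc D t₀ lam Φ p)⁻¹ * ricM (rsc D t₀ lam Φ) p).trace.re
    = ((D.h (t₀ + p.1 / lam) Φ p.2)⁻¹ * D.ric (t₀ + p.1 / lam) Φ p.2).trace.re / lam
  rw [ricM_rsc D hg hΦ hlam ht₀ hp]
  show ((((lam : ℝ) : ℂ) • D.h (t₀ + p.1 / lam) Φ p.2)⁻¹ * _).trace.re = _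
  rw [lc_inv_smul, Matrix.smul_mul, Matrix.trace_smul, smul_eq_mul, ← Complex.ofReal_inv,
    Complex.re_ofReal_mul]
  exact (div_eq_inv_mul _ _).symm

theorem rs_R_differentiableAt_time (hΦ : IsLocBihol 𝓜 Φ (Metric.ball 0 r)) (hlam : 0 < lam)
    (ht₀ : δ / lam < t₀) (hp : p ∈ dom (ι := Fin n) δ r) :
    DifferentiableAt ℝ (fun s => D.R s (Φ p.2)) (t₀ + p.1 / lam) := by
  obtain ⟨U, -, hpU, hU⟩ := hΦ.2 p.2 hp.2
  have ht := rsc_time_pos hlam ht₀ hp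
  have h1 : ContDiffOn ℝ ∞ (fun s => D.R s (Φ p.2)) (Set.Ici 0) :=
    contDiffOn_timeline (F := fun q : ℝ × CE (Fin n) => D.R q.1 (Φ q.2)) (D.R_smooth Φ U hU) hpU
  exact (h1.contDiffAt (Ici_mem_nhds ht)).differentiableAt (by simp)

theorem rs_R_differentiableAt_space (hΦ : IsLocBihol 𝓜 Φ (Metric.ball 0 r)) (hlam : 0 < lam)
    (ht₀ : δ / lam < t₀) (hp : p ∈ dom (ι := Fin n) δ r) :
    DifferentiableAt ℝ (fun w => ((D.R (t₀ + p.1 / lam) (Φ w) : ℝ) : ℂ)) p.2 := by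
  obtain ⟨U, -, hpU, hU⟩ := hΦ.2 p.2 hp.2
  have ht := rsc_time_pos hlam ht₀ hp
  have h1 : ContDiffOn ℝ ∞ (fun w => D.R (t₀ + p.1 / lam) (Φ w)) U :=
    contDiffOn_slice_space (F := fun q : ℝ × CE (Fin n) => D.R q.1 (Φ q.2)) (D.R_smooth Φ U hU)
      (Set.mem_Ici.2 ht.le)
  have h2 : DifferentiableAt ℝ (fun w => D.R (t₀ + p.1 / lam) (Φ w)) p.2 :=
    (h1.contDiffAt ((CMfd.isOpen_dom hU).mem_nhds hpU)).differentiableAt (by simp)
  exact Complex.ofRealCLM.differentiableAt.comp p.2 h2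

theorem sclT_rsc (hg : IsMetric 𝓜 g) (hΦ : IsLocBihol 𝓜 Φ (Metric.ball 0 r)) (hlam : 0 < lam)
    (ht₀ : δ / lam < t₀) (hp : p ∈ dom (ι := Fin n) δ r) :
    sclT (rsc D t₀ lam Φ) p = deriv (fun s => D.R s (Φ p.2)) (t₀ + p.1 / lam) / lam ^ 2 := by
  have e : (fun s => scl (rsc D t₀ lam Φ) (s, p.2))
      =ᶠ[𝓝 p.1] fun s => D.R (t₀ + s / lam) (Φ p.2) / lam := by
    filter_upwards [rs_mem_dom_time hp] with s hs
    exact scl_rsc D hg hΦ hlam ht₀ hs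
  show deriv (fun s => scl (rsc D t₀ lam Φ) (s, p.2)) p.1 = _
  rw [e.deriv_eq]
  have h1 := (rs_R_differentiableAt_time D hΦ hlam ht₀ hp).hasDerivAt
  have h2 := (h1.scomp p.1 (rs_hasDerivAt_time t₀ lam p.1)).div_const lam
  have h3 := h2.deriv
  refine Eq.trans h3 ?_
  rw [smul_eq_mul]
  field_simp

theorem Sq_rsc (hg : IsMetric 𝓜 g) (hΦ : IsLocBihol 𝓜 Φ (Metric.ball 0 r)) (hlam : 0 < lam)
    (ht₀ : δ / lam < t₀) (hp : p ∈ dom (ι := Fin n) δ r) :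
    Sq (rsc D t₀ lam Φ) (t₀ * lam) p =
      (deriv (fun s => D.R s (Φ p.2)) (t₀ + p.1 / lam)
        + D.R (t₀ + p.1 / lam) (Φ p.2) / (t₀ + p.1 / lam)) / lam ^ 2 := by
  have ht := rsc_time_pos hlam ht₀ hp
  show sclT (rsc D t₀ lam Φ) p + scl (rsc D t₀ lam Φ) p / (t₀ * lam + p.1) = _
  rw [sclT_rsc D hg hΦ hlam ht₀ hp, scl_rsc D hg hΦ hlam ht₀ hp]
  have e : t₀ * lam + p.1 = lam * (t₀ + p.1 / lam) := by field_simp
  rw [e]
  field_simp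

theorem dscl_rsc (hg : IsMetric 𝓜 g) (hΦ : IsLocBihol 𝓜 Φ (Metric.ball 0 r)) (hlam : 0 < lam)
    (ht₀ : δ / lam < t₀) (hp : p ∈ dom (ι := Fin n) δ r) (k : Fin n) :
    dscl (rsc D t₀ lam Φ) k p =
      dz k (fun w => ((D.R (t₀ + p.1 / lam) (Φ w) : ℝ) : ℂ)) p.2 / ((lam : ℝ) : ℂ) := by
  have e : (fun w => ((scl (rsc D t₀ lam Φ) (p.1, w) : ℝ) : ℂ))
      =ᶠ[𝓝 p.2] fun w => ((D.R (t₀ + p.1 / lam) (Φ w) : ℝ) : ℂ) * (((lam : ℝ) : ℂ))⁻¹ := by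
    filter_upwards [rs_mem_dom_space hp] with w hw
    rw [scl_rsc D hg hΦ hlam ht₀ hw, Complex.ofReal_div, div_eq_mul_inv]
  show dz k (fun w => ((scl (rsc D t₀ lam Φ) (p.1, w) : ℝ) : ℂ)) p.2 = _
  rw [dz_congr e, dz_mul_const _ (rs_R_differentiableAt_space D hΦ hlam ht₀ hp)]
  exact (div_eq_mul_inv _ _).symm

theorem ricT_rsc (hg : IsMetric 𝓜 g) (hΦ : IsLocBihol 𝓜 Φ (Metric.ball 0 r)) (hlam : 0 < lam)
    (ht₀ : δ / lam < t₀) (hp : p ∈ dom (ι := Fin n) δ r) :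
    ricT (rsc D t₀ lam Φ) p = ((lam⁻¹ : ℝ) : ℂ) • D.ricDt (t₀ + p.1 / lam) Φ p.2 := by
  obtain ⟨U, -, hpU, hU⟩ := hΦ.2 p.2 hp.2
  have ht := rsc_time_pos hlam ht₀ hp
  ext j l
  have e : (fun s => ricM (rsc D t₀ lam Φ) (s, p.2) j l)
      =ᶠ[𝓝 p.1] fun s => D.ric (t₀ + s / lam) Φ p.2 j l := by
    filter_upwards [rs_mem_dom_time hp] with s hs
    rw [ricM_rsc D hg hΦ hlam ht₀ hs]
  show deriv (fun s => ricM (rsc D t₀ lam Φ) (s, p.2) j l) p.1 = _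
  rw [e.deriv_eq]
  have h1 := fc_dt_ric D hg hU ht hpU j l
  have h2 := (h1.scomp p.1 (rs_hasDerivAt_time t₀ lam p.1)).deriv
  refine Eq.trans h2 ?_
  rw [Complex.real_smul, Matrix.smul_apply, smul_eq_mul]

end pointwise

section family

variable (D : FlowData 𝓜 g o) {Φ : CE (Fin n) → V} {t₀ lam δ r : ℝ} {p : ℝ × CE (Fin n)}

theorem rsc_scalar (hg : IsMetric 𝓜 g) (Hk : D.Harnack) (hΦ : IsLocBihol 𝓜 Φ (Metric.ball 0 r))
    (hlam : 0 < lam) (ht₀ : δ / lam < t₀) (hp : p ∈ dom (ι := Fin n) δ r) (X : Fin n → ℂ) :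
    0 ≤ Sq (rsc D t₀ lam Φ) (t₀ * lam) p + 2 * (∑ k, X k * dscl (rsc D t₀ lam Φ) k p).re
      + qf (ricM (rsc D t₀ lam Φ) p) X := by
  obtain ⟨U, -, hpU, hU⟩ := hΦ.2 p.2 hp.2
  have ht := rsc_time_pos hlam ht₀ hp
  have h := Hk.scalar _ ht Φ U hU p.2 hpU (((lam : ℝ) : ℂ) • X)
  rw [qf_smul_vec] at h
  rw [Sq_rsc D hg hΦ hlam ht₀ hp, ricM_rsc D hg hΦ hlam ht₀ hp]
  simp only [dscl_rsc D hg hΦ hlam ht₀ hp]
  set a := deriv (fun s => D.R s (Φ p.2)) (t₀ + p.1 / lam)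
    + D.R (t₀ + p.1 / lam) (Φ p.2) / (t₀ + p.1 / lam) with ha
  set S := ∑ k, X k * dz k (fun w => ((D.R (t₀ + p.1 / lam) (Φ w) : ℝ) : ℂ)) p.2 with hS
  set Q := qf (D.ric (t₀ + p.1 / lam) Φ p.2) X with hQ
  have e1 : (∑ k, (((lam : ℝ) : ℂ) • X) k
      * dz k (fun w => ((D.R (t₀ + p.1 / lam) (Φ w) : ℝ) : ℂ)) p.2) = ((lam : ℝ) : ℂ) * S := by
    rw [hS, Finset.mul_sum]
    refine Finset.sum_congr rfl fun k _ => ?_
    rw [Pi.smul_apply, smul_eq_mul, mul_assoc]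
  have e2 : (∑ k, X k * (dz k (fun w => ((D.R (t₀ + p.1 / lam) (Φ w) : ℝ) : ℂ)) p.2
      / ((lam : ℝ) : ℂ))) = ((lam⁻¹ : ℝ) : ℂ) * S := by
    rw [hS, Finset.mul_sum]
    refine Finset.sum_congr rfl fun k _ => ?_
    rw [Complex.ofReal_inv, div_eq_mul_inv]
    ring
  rw [e1, Complex.re_ofReal_mul, Complex.norm_real, Real.norm_eq_abs, sq_abs] at h
  rw [e2, Complex.re_ofReal_mul]
  have h2 : 0 ≤ (a + 2 * (lam * S.re) + lam ^ 2 * Q) / lam ^ 2 := div_nonneg h (by positivity)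
  have e3 : (a + 2 * (lam * S.re) + lam ^ 2 * Q) / lam ^ 2
      = a / lam ^ 2 + 2 * (lam⁻¹ * S.re) + Q := by
    field_simp
  rw [e3] at h2
  exact h2

theorem rs_inv_of_center (hlam : 0 < lam) {H : Matrix (Fin n) (Fin n) ℂ}
    (hc : ((lam : ℝ) : ℂ) • H = 1) : H⁻¹ = ((lam : ℝ) : ℂ) • (1 : Matrix (Fin n) (Fin n) ℂ) := by
  have hl : ((lam : ℝ) : ℂ) ≠ 0 := by exact_mod_cast hlam.ne'
  have h1 : (((lam : ℝ) : ℂ) • H)⁻¹ = 1 := by rw [hc, inv_one]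
  rw [lc_inv_smul] at h1
  rw [← h1, smul_smul, mul_inv_cancel₀ hl, one_smul]

theorem rsc_matrix (hg : IsMetric 𝓜 g) (Hk : D.Harnack) (hΦ : IsLocBihol 𝓜 Φ (Metric.ball 0 r))
    (hlam : 0 < lam) (hδ : 0 < δ) (hr : 0 < r) (ht₀ : δ / lam < t₀)
    (hc : ((lam : ℝ) : ℂ) • D.h t₀ Φ 0 = 1) :
    (ricT (rsc D t₀ lam Φ) (0, 0) + ricM (rsc D t₀ lam Φ) (0, 0) * ricM (rsc D t₀ lam Φ) (0, 0)
      + (((t₀ * lam)⁻¹ : ℝ) : ℂ) • ricM (rsc D t₀ lam Φ) (0, 0)).PosSemidef := by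
  have hp : ((0, 0) : ℝ × CE (Fin n)) ∈ dom (ι := Fin n) δ r := zero_mem_dom hδ hr
  obtain ⟨U, -, hpU, hU⟩ := hΦ.2 0 (Metric.mem_ball_self hr)
  have ht : 0 < t₀ := lt_trans (div_pos hδ hlam) ht₀
  have hl : ((lam : ℝ) : ℂ) ≠ 0 := by exact_mod_cast hlam.ne'
  rw [ricT_rsc D hg hΦ hlam ht₀ hp, ricM_rsc D hg hΦ hlam ht₀ hp]
  simp only [zero_div, add_zero]
  have h := Hk.matrix t₀ ht Φ U hU 0 hpU
  rw [rs_inv_of_center hlam hc] at h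
  have h2 := posSemidef_smul_real (inv_pos.2 hlam).le h
  have e : ((lam⁻¹ : ℝ) : ℂ) • (D.ricDt t₀ Φ 0
        + D.ric t₀ Φ 0 * (((lam : ℝ) : ℂ) • (1 : Matrix (Fin n) (Fin n) ℂ)) * D.ric t₀ Φ 0
        + ((t₀⁻¹ : ℝ) : ℂ) • D.ric t₀ Φ 0)
      = ((lam⁻¹ : ℝ) : ℂ) • D.ricDt t₀ Φ 0 + D.ric t₀ Φ 0 * D.ric t₀ Φ 0
        + (((t₀ * lam)⁻¹ : ℝ) : ℂ) • D.ric t₀ Φ 0 := by
    rw [smul_add, smul_add, Matrix.mul_smul, Matrix.mul_one, Matrix.smul_mul, smul_smul, smul_smul,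
      Complex.ofReal_inv, inv_mul_cancel₀ hl, one_smul, mul_inv, Complex.ofReal_mul,
      Complex.ofReal_inv, Complex.ofReal_inv, mul_comm]
  rw [e] at h2
  exact h2

/-- the hypothesis of `UniformCharts` along the Ricci windows. -/
theorem rs_window_hyp {ti δ₀ Λ lam : ℝ} (hlam : 0 < lam)
    (hΛ : ∀ z ∈ Set.Icc (-δ₀) δ₀, ∀ x ∈ hball 𝓜 (D.h (ti + z / lam)) o (1 / Real.sqrt lam),
      D.R (ti + z / lam) x ≤ Λ * lam) :
    ∀ t ∈ Set.Icc (ti - δ₀ / lam) (ti + δ₀ / lam), ∀ x ∈ hball 𝓜 (D.h t) o (1 / Real.sqrt lam),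
      D.R t x ≤ max Λ 1 * lam := by
  intro t ht x hx
  have hz : (t - ti) * lam ∈ Set.Icc (-δ₀) δ₀ := by
    have h1 := ht.1
    have h2 := ht.2
    constructor
    · have : -(δ₀ / lam) ≤ t - ti := by linarith
      have h3 := mul_le_mul_of_nonneg_right this hlam.le
      have e : -(δ₀ / lam) * lam = -δ₀ := by field_simp
      linarith
    · have : t - ti ≤ δ₀ / lam := by linarith
      have h3 := mul_le_mul_of_nonneg_right this hlam.le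
      have e : δ₀ / lam * lam = δ₀ := by field_simp
      linarith
  have e : ti + (t - ti) * lam / lam = t := by field_simp; ring
  have h := hΛ _ hz x (by rw [e]; exact hx)
  rw [e] at h
  exact h.trans (mul_le_mul_of_nonneg_right (le_max_left _ _) hlam.le)

/-- the lower Ricci bound at the unitary centre. -/
theorem rs_ric_lower {b : ℝ} (hΦ : IsLocBihol 𝓜 Φ (Metric.ball 0 r)) (hr : 0 < r) (hΦ0 : Φ 0 = o)
    (hc : ((lam : ℝ) : ℂ) • D.h t₀ Φ 0 = 1)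
    (hric : leFOn 𝓜 {o} (smulF (fun _ => b * lam) (D.h t₀)) (D.ric t₀)) :
    leM (cI b) (D.ric t₀ Φ 0) := by
  obtain ⟨U, -, hpU, hU⟩ := hΦ.2 0 (Metric.mem_ball_self hr)
  have h := hric Φ U hU 0 hpU (by rw [hΦ0]; rfl)
  have e : smulF (fun _ => b * lam) (D.h t₀) Φ 0 = cI b := by
    show (((b * lam : ℝ)) : ℂ) • D.h t₀ Φ 0 = ((b : ℝ) : ℂ) • (1 : Matrix (Fin n) (Fin n) ℂ)
    rw [← hc, smul_smul, Complex.ofReal_mul]
  rw [e] at h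
  exact h

/-- **the rescaled flows along the Ricci windows form an `IsWin`**, and their trace Harnack quantity tends to `0` at the centre. -/
theorem exists_win (I : InitialData 𝓜 g) (ho : o ∈ 𝓜.carrier) (Hk : D.Harnack)
    (UC : D.UniformCharts) (W : D.Windows) :
    ∃ (δ r c C b : ℝ) (ti : ℕ → ℝ) (Φ : ℕ → CE (Fin n) → V),
      Tendsto ti atTop atTop ∧ (∀ i, 0 < ti i ∧ 0 < D.R (ti i) o) ∧
      (∀ i, IsLocBihol 𝓜 (Φ i) (Metric.ball 0 r) ∧ Φ i 0 = o) ∧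
      IsWin δ r c C b (fun i => rsc D (ti i) (D.R (ti i) o) (Φ i)) (fun i => ti i * D.R (ti i) o) ∧
      Tendsto (fun i => Sq (rsc D (ti i) (D.R (ti i) o) (Φ i)) (ti i * D.R (ti i) o) (0, 0))
        atTop (𝓝 0) ∧
      (∀ i, ∀ w ∈ Metric.ball (0 : CE (Fin n)) r,
        scl (rsc D (ti i) (D.R (ti i) o) (Φ i)) (0, w) = D.R (ti i) (Φ i w) / D.R (ti i) o) := by
  have hg : IsMetric 𝓜 g := I.kahler.toIsMetric
  obtain ⟨ti, δ₀, b, hδ₀, hb, hti, hpos, hwin, hric, hlim⟩ := W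
  obtain ⟨Λ, i₀, hΛ⟩ := hwin 1 one_pos
  obtain ⟨r, c, C, Ck, hr, hc, hUC⟩ := UC 1 δ₀ (max Λ 1) one_pos hδ₀ (lt_max_of_lt_right one_pos)
  have hR : ∀ i, 0 < D.R (ti i) o := fun i => by
    have h1 : 0 < ti i * D.R (ti i) o := by linarith [(hpos i).2]
    exact (pos_iff_pos_of_mul_pos h1).1 (hpos i).1
  have hδt : ∀ i, δ₀ / D.R (ti i) o < ti i := fun i => by
    rw [div_lt_iff₀ (hR i)]; linarith [(hpos i).2]
  have hδt' : ∀ i, δ₀ / 2 / D.R (ti i) o < ti i := fun i => by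
    refine lt_of_le_of_lt ?_ (hδt i)
    exact div_le_div_of_nonneg_right (by linarith) (hR i).le
  have key := fun i (hi : i₀ ≤ i) => hUC (ti i) (D.R (ti i) o) o ho (hR i) (hδt i)
    (rs_window_hyp D (hR i) (hΛ i hi))
  choose! Φ hΦ using key
  have hδ : 0 < δ₀ / 2 := by linarith
  have hsub : ∀ p : ℝ × CE (Fin n), p ∈ dom (ι := Fin n) (δ₀ / 2) r →
      p.1 ∈ Set.Icc (-(δ₀ / 2)) (δ₀ / 2) := fun p hp => ⟨hp.1.1.le, hp.1.2.le⟩
  have h00 : ((0, 0) : ℝ × CE (Fin n)) ∈ dom (ι := Fin n) (δ₀ / 2) r := zero_mem_dom hδ hr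
  refine ⟨δ₀ / 2, r, c, C, b, fun i => ti (i + i₀), fun i => Φ (i + i₀),
    (tendsto_add_atTop_iff_nat i₀).2 hti, fun i => ⟨(hpos _).1, hR _⟩,
    fun i => ⟨(hΦ _ (Nat.le_add_left _ _)).1, (hΦ _ (Nat.le_add_left _ _)).2.1⟩, ?_, ?_, ?_⟩
  · refine ⟨hδ, hr, hc, hb, fun j l => ⟨fun i => ?_, fun k => ⟨Ck k, fun i p hp => ?_⟩⟩,
      fun i p hp => ?_, fun i p hp => ?_, fun i p hp j l => ?_, fun i => ?_, fun i p hp X => ?_,
      fun i => ?_, fun i => ?_, fun i => ?_⟩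
    · exact rsc_contDiffOn D hg (hΦ _ (Nat.le_add_left _ _)).1 (hR _) (hδt' _) j l
    · exact (hΦ _ (Nat.le_add_left i₀ i)).2.2.2.2 k j l p.1 (hsub p hp) p.2 hp.2
    · exact ((hΦ _ (Nat.le_add_left i₀ i)).2.2.2.1 p.1 (hsub p hp) p.2 hp.2).1
    · exact ((hΦ _ (Nat.le_add_left i₀ i)).2.2.2.1 p.1 (hsub p hp) p.2 hp.2).2
    · exact rsc_flow D hg (hΦ _ (Nat.le_add_left _ _)).1 (hR _) (hδt' _) hp j l
    · show 2 * (δ₀ / 2) < ti (i + i₀) * D.R (ti (i + i₀)) o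
      linarith [(hpos (i + i₀)).2]
    · exact rsc_scalar D hg Hk (hΦ _ (Nat.le_add_left _ _)).1 (hR _) (hδt' _) hp X
    · show ((D.R (ti (i + i₀)) o : ℝ) : ℂ)
        • D.h (ti (i + i₀) + (0 : ℝ) / D.R (ti (i + i₀)) o) (Φ (i + i₀)) 0 = 1
      rw [zero_div, add_zero]
      exact (hΦ _ (Nat.le_add_left i₀ i)).2.2.1
    · exact rsc_matrix D hg Hk (hΦ _ (Nat.le_add_left _ _)).1 (hR _) hδ hr (hδt' _)
        (hΦ _ (Nat.le_add_left i₀ i)).2.2.1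
    · show leM (cI b) (ricM (rsc D (ti (i + i₀)) (D.R (ti (i + i₀)) o) (Φ (i + i₀))) (0, 0))
      rw [ricM_rsc D hg (hΦ _ (Nat.le_add_left _ _)).1 (hR _) (hδt' _) h00]
      simp only [zero_div, add_zero]
      exact rs_ric_lower D (hΦ _ (Nat.le_add_left _ _)).1 hr (hΦ _ (Nat.le_add_left i₀ i)).2.1
        (hΦ _ (Nat.le_add_left i₀ i)).2.2.1 (hric _)
  · have h1 := (tendsto_add_atTop_iff_nat i₀).2 hlim
    refine h1.congr fun i => ?_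
    rw [Sq_rsc D hg (hΦ _ (Nat.le_add_left _ _)).1 (hR _) (hδt' _) h00]
    simp only [zero_div, add_zero]
    rw [(hΦ _ (Nat.le_add_left i₀ i)).2.1]
  · intro i w hw
    have hp : ((0, w) : ℝ × CE (Fin n)) ∈ dom (ι := Fin n) (δ₀ / 2) r :=
      ⟨⟨by linarith, hδ⟩, hw⟩
    rw [scl_rsc D hg (hΦ _ (Nat.le_add_left _ _)).1 (hR _) (hδt' _) hp]
    simp only [zero_div, add_zero]

end family

end Claimed.Agent.R316.SC
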