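import Claimed.Agent.R316.S7.SC.Center
import Claimed.Agent.R316.S7.SC.Lift
import Claimed.Agent.R316.S7.SC.Rescale
import Claimed.Agent.R316.Pack030

/-!
# Row 316, BP-S7-5: Proposition 7.5 (simple connectivity): Part L (section `small`, leaf L-S7-5-13) and the assembly `st75` (proved from the leaves of `S7/SC/`)
-/

set_option autoImplicit false
set_option linter.unusedSectionVars false
open scoped ContDiff ComplexOrder Topology Matrix
open MeasureTheory Filter

namespace Claimed.Agent.R316.SC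

/-!
## Section `small`, leaf L-S7-5-13: compact sets become small for the rescaled metrics (~350 lines)

PROVED (helper126), from `s74_dist_small` (`S7/Clk/Mfd.lean`).  `Base/Metric/Api.lean` (G0), `CM/*` may be used as they stand.  charts.tex l.800-806.

`g_i = λ_i h_{t_i}` with `0 < λ_i ≤ C_R` (`Harnack.R_o_le`) and `t_i → ∞`.
PROOF of `compact_subset_hball`.  `K ⊆ hball 𝓜 g o ρ₀` (`exists_hcball_of_isCompact`), `K' = hcball 𝓜 g o ρ₀` is compact (`I.proper`).  `Hk.power K'`: `h_t ≤ C t^{-a} g` over `K'` for `t ≥ 1`; put `C' = max C 1`, `C_R' = max C_R 1`,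
`κ_t = C_R' C' t^{-a} > 0`.  Then `smulF λ (h_t) ≤ smulF κ_t g` over `K'` (`leFOn`; `loewner_smul`, `loewner_smul_le`, `loewner_trans`), in particular over `hball 𝓜 (smulF κ_t g) o (√κ_t ρ₀) = hball 𝓜 g o ρ₀`
(`hdist_smulF_const`).  `hdist_le_of_leFOn_hball`: for `y ∈ K`, `hdist (smulF λ h_t) o y ≤ hdist (smulF κ_t g) o y = √κ_t hdist g o y < √κ_t ρ₀`.  Finally `κ_t → 0` as `t → ∞` (`tendsto_rpow_neg_atTop`), so `√κ_t ρ₀ < ε` eventually.
`IsMetric` of `smulF (fun _ => λ) h`, `λ > 0`: `isMetric_smulF_const` below (herm, smooth, compat, posDef are all immediate from the definition `smulF f A Φ z = (f (Φ z) : ℂ) • A Φ z`).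
-/

section small

section general

variable {V : Type} [NormedAddCommGroup V] [NormedSpace ℝ V]
variable {ι : Type} [Fintype ι] [DecidableEq ι] {𝓜 : CMfd V ι} {h : HFam V ι}

theorem isMetric_smulF_const (hm : IsMetric 𝓜 h) {lam : ℝ} (hlam : 0 < lam) :
    IsMetric 𝓜 (smulF (fun _ => lam) h) :=
  IsMetric.smulF (CMfd.smooth_of_contDiff contDiff_const) (fun _ _ => hlam) hm

end general

variable {V : Type} [NormedAddCommGroup V] [NormedSpace ℝ V] [FiniteDimensional ℝ V]
  [MeasurableSpace V] [BorelSpace V]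
variable {n : ℕ} {𝓜 : CMfd V (Fin n)} {g : HFam V (Fin n)} {o : V}

/-- **Part L**: every compact set lies in an arbitrarily small ball of `λ h_t` about `o`, for all large `t` and all `0 < λ ≤ R(o,t)`-type bounded factors. -/
theorem compact_subset_hball (D : FlowData 𝓜 g o) (I : InitialData 𝓜 g) (ho : o ∈ 𝓜.carrier)
    (Hk : D.Harnack) {K : Set V} (hK : IsCompact K) (hKM : K ⊆ 𝓜.carrier) {ε : ℝ} (hε : 0 < ε) :
    ∃ T : ℝ, ∀ t : ℝ, T ≤ t → 0 < D.R t o →
      K ⊆ hball 𝓜 (smulF (fun _ => D.R t o) (D.h t)) o ε := by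
  obtain ⟨CR, hCR⟩ := Hk.R_o_le
  set C' : ℝ := max CR 1 with hC'
  have hC'0 : 0 < C' := lt_of_lt_of_le one_pos (le_max_right _ _)
  have hs : 0 < Real.sqrt C' := Real.sqrt_pos.2 hC'0
  obtain ⟨T, hT1, hT⟩ := s74_dist_small D I ho Hk hK hKM (η := ε / (2 * Real.sqrt C'))
    (by positivity)
  refine ⟨T, fun t ht hR y hy => ⟨hKM hy, ?_⟩⟩
  have ht0 : 0 ≤ t := by linarith
  rw [hdist_smulF_const (fc_metric D ht0) hR]
  have h1 : Real.sqrt (D.R t o) ≤ Real.sqrt C' :=
    Real.sqrt_le_sqrt ((hCR t ht0).trans (le_max_left _ _))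
  have h2 := hT t ht y hy
  calc Real.sqrt (D.R t o) * hdist 𝓜 (D.h t) o y
      ≤ Real.sqrt C' * (ε / (2 * Real.sqrt C')) :=
        mul_le_mul h1 h2 (hdist_nonneg _ _ _ _) hs.le
    _ = ε / 2 := by field_simp
    _ < ε := by linarith

end small

end Claimed.Agent.R316.SC

namespace Claimed.Agent.R316

open Claimed.Agent.R316.SC

variable {V : Type} [NormedAddCommGroup V] [NormedSpace ℝ V] [FiniteDimensional ℝ V]
  [MeasurableSpace V] [BorelSpace V]
variable {n : ℕ} {𝓜 : CMfd V (Fin n)} {g : HFam V (Fin n)} {o : V}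

/-- **Proposition 7.5** (simple connectivity). -/
theorem st75 (D : FlowData 𝓜 g o) : St75 D := by
  intro I ho Hk UC _CF W
  obtain ⟨δ, r, c, C, b, ti, Φ, hti, hpos, hΦ, Wn, hS, hscl⟩ := exists_win D I ho Hk UC W
  obtain ⟨r', hr', hr'r, hconc⟩ := Wn.concave hS
  have hc := Wn.c_pos
  have hb := Wn.b_pos
  have hsc : 0 < Real.sqrt c := Real.sqrt_pos.2 hc
  have hsC : 0 ≤ Real.sqrt (C / c) := Real.sqrt_nonneg _
  -- the radius of injectivity
  obtain ⟨ρ, hρ0, hρr⟩ : ∃ ρ : ℝ, 0 < ρ ∧ ρ + Real.sqrt (C / c) * (2 * ρ) < r' := by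
    refine ⟨r' / (2 * (1 + 2 * Real.sqrt (C / c))), by positivity, ?_⟩
    have hden : 0 < 1 + 2 * Real.sqrt (C / c) := by positivity
    have : r' / (2 * (1 + 2 * Real.sqrt (C / c)))
        + Real.sqrt (C / c) * (2 * (r' / (2 * (1 + 2 * Real.sqrt (C / c))))) = r' / 2 := by
      field_simp
    rw [this]
    linarith
  have hρr' : ρ < r' := by
    have h1 : 0 ≤ Real.sqrt (C / c) * (2 * ρ) := by positivity
    linarith
  have hev := hconc (b ^ 2 * ρ / 4) (by positivity)
  refine simplyConnectedSpace_of_exhaustion (E := CE (Fin n))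
    (𝓜.isPathConnected_carrier I.conn) ?_
  intro K hK hKM
  obtain ⟨T, hT⟩ := compact_subset_hball D I ho Hk hK hKM (ε := Real.sqrt c * (ρ / 2))
    (by positivity)
  obtain ⟨i, ⟨hi1, hi2⟩, hi3⟩ := (hev.and (hti.eventually_ge_atTop T)).exists
  have hlam := (hpos i).2
  have hm : IsMetric 𝓜 (smulF (fun _ => D.R (ti i) o) (D.h (ti i))) :=
    isMetric_smulF_const (fc_metric D (hpos i).1.le) hlam
  have hΦ' : IsLocBihol 𝓜 (Φ i) (Metric.ball 0 r') :=
    tr7_locBihol_mono (hΦ i).1 Metric.isOpen_ball (Metric.ball_subset_ball hr'r)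
  have hmat : ∀ w : CE (Fin n), smulF (fun _ => D.R (ti i) o) (D.h (ti i)) (Φ i) w
      = rsc D (ti i) (D.R (ti i) o) (Φ i) (0, w) := by
    intro w
    simp [smulF, rsc]
  have hdom : ∀ w ∈ Metric.ball (0 : CE (Fin n)) r', ((0, w) : ℝ × CE (Fin n)) ∈ dom δ r :=
    fun w hw => ⟨⟨by linarith [Wn.δ_pos], Wn.δ_pos⟩, Metric.ball_subset_ball hr'r hw⟩
  have hlow : ∀ w ∈ Metric.ball (0 : CE (Fin n)) r',
      leM (cI c) (smulF (fun _ => D.R (ti i) o) (D.h (ti i)) (Φ i) w) := by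
    intro w hw
    rw [hmat]
    exact Wn.lower i _ (hdom w hw)
  have hup : ∀ w ∈ Metric.ball (0 : CE (Fin n)) r',
      leM (smulF (fun _ => D.R (ti i) o) (D.h (ti i)) (Φ i) w) (cI C) := by
    intro w hw
    rw [hmat]
    exact Wn.upper i _ (hdom w hw)
  have hinj : Set.InjOn (Φ i) (Metric.ball 0 ρ) := by
    refine injOn_of_concave (f := fun w => scl (rsc D (ti i) (D.R (ti i) o) (Φ i)) (0, w))
      (a := b ^ 2) (η := b ^ 2 * ρ / 4) hm.toIsHForm hΦ' hc hlow hup ?_ ?_ (by positivity) ?_ hi1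
      hρ0 ?_ hρr
    · intro z hz z' hz' hzz
      rw [hscl i z (Metric.ball_subset_ball hr'r hz), hscl i z' (Metric.ball_subset_ball hr'r hz'),
        hzz]
    · exact ((((Wn.ub_scl).slice0 Wn.δ_pos).smooth i).mono
        (Metric.ball_subset_ball hr'r)).of_le (by norm_cast)
    · exact hi2
    · have : 0 < b ^ 2 * ρ := by positivity
      linarith
  have hcov := hball_subset_image hm I.conn hΦ' hc hlow (ρ := ρ / 2) (by positivity)
    (by linarith)
  rw [(hΦ i).2] at hcov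
  have hsub : Metric.closedBall (0 : CE (Fin n)) (ρ / 2) ⊆ Metric.ball 0 ρ :=
    Metric.closedBall_subset_ball (by linarith)
  have hsub' : Metric.closedBall (0 : CE (Fin n)) (ρ / 2) ⊆ Metric.ball 0 r' :=
    hsub.trans (Metric.ball_subset_ball hρr'.le)
  refine ⟨Metric.closedBall 0 (ρ / 2), Φ i, convex_closedBall _ _, isCompact_closedBall _ _,
    (tr7_continuousOn hΦ').mono hsub', hinj.mono hsub,
    fun z hz => tr7_mem_carrier hΦ' (hsub' hz), ?_⟩
  exact ((hT (ti i) hi3 hlam).trans hcov).trans (Set.image_mono Metric.ball_subset_closedBall)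

end Claimed.Agent.R316
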