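import Mathlib

/-!
# Row 316, BP-S7-5 (sub-captain helper267): the MATHLIB-ONLY toolbox of Proposition 7.5

Four independent leaves, one per section: `ub` (L-S7-5-1), `almostMin` (L-S7-5-3), `concaveFn` (L-S7-5-10), `topo` (L-S7-5-12).
ALL FOUR SECTIONS PROVED (helper11), no `sorry`.
-/

set_option autoImplicit false
set_option linter.unusedSectionVars false
open scoped ContDiff Topology

namespace Claimed.Agent.R316.SC

/-!
## Section `ub`, leaf L-S7-5-1: families with uniformly bounded derivatives (~500 lines)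

PROVED (helper11); auxiliary lemmas: prefix `ub_`.

`UB O f`: `f : I → E → F` is a family of functions, smooth on the OPEN set `O`, such that for every `k` the `k`-th derivative is bounded on `O`
uniformly in the index `i : I`.  This replaces every "smooth compactness / limit flow" argument of charts.tex l.686-760: no limit is taken, all
statements are "uniform in the family".

RECIPES.  `O` open: `(h.smooth i).contDiffAt (hO.mem_nhds hx)`, `iteratedFDerivWithin_of_isOpen`.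
* `add/neg/sub/sum`: `iteratedFDeriv_add_apply`, `iteratedFDeriv_neg_apply`, `norm_add_le`; the bound is the sum of the bounds.
* `clm`: `ContinuousLinearMap.iteratedFDeriv_comp_left`, `ContinuousLinearMap.norm_compContinuousMultilinearMap_le` (bound `‖T‖ * C`).
* `bilin`: `ContinuousLinearMap.norm_iteratedFDerivWithin_le_of_bilinear` on `O` (`hO.uniqueDiffOn`), then bound each of the finitely many terms
  (choose the constants with `choose`, take `∑ j ∈ range (k+1), k.choose j * Cf j * Cg (k - j)`; replace `Cf j` by `max (Cf j) 0` or note `0 ≤ ‖·‖ ≤ Cf j` when `O × I` is nonempty; easiest: first prove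
  `UB.exists_bound : ∃ C : ℕ → ℝ, (∀ k, 0 ≤ C k) ∧ ∀ k i, ∀ x ∈ O, ‖iteratedFDeriv ℝ k (f i) x‖ ≤ C k`).
* `fd`: `norm_iteratedFDeriv_fderiv` (`‖iteratedFDeriv k (fderiv f) x‖ = ‖iteratedFDeriv (k+1) f x‖`), smoothness by `ContDiffOn.fderiv_of_isOpen`; `fd_apply` = `clm` with `ContinuousLinearMap.apply ℝ F v`.
* `comp_of_bddOn`: `norm_iteratedFDerivWithin_comp_le` (or `norm_iteratedFDeriv_comp_le` after localisation) with `C = max_{j ≤ k} Cg j`, `D = max 1 (max_{j ≤ k} Cf j)` (`Cf j ≤ D ≤ D ^ j` for `1 ≤ j`).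
* `comp_compact`: `y ↦ iteratedFDeriv ℝ k g y` is continuous on the open `U` (`ContDiffOn.continuousOn_iteratedFDerivWithin` + `iteratedFDerivWithin_of_isOpen`), hence bounded on the compact `S` (`IsCompact.exists_bound_of_continuousOn`).
* `lipschitz`: `Convex.norm_image_sub_le_of_norm_fderiv_le` with `norm_fderiv` bound (`k = 1`: `norm_iteratedFDeriv_one` / `norm_fderiv_iteratedFDeriv`).
-/

section ub

variable {I : Type}
variable {E F G K : Type} [NormedAddCommGroup E] [NormedSpace ℝ E] [NormedAddCommGroup F]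
  [NormedSpace ℝ F] [NormedAddCommGroup G] [NormedSpace ℝ G] [NormedAddCommGroup K] [NormedSpace ℝ K]

/-- a family of smooth functions on `O` all of whose derivatives are bounded, uniformly in the index and in the point. -/
structure UB (O : Set E) (f : I → E → F) : Prop where
  smooth : ∀ i, ContDiffOn ℝ ∞ (f i) O
  bdd : ∀ k : ℕ, ∃ C : ℝ, ∀ i, ∀ x ∈ O, ‖iteratedFDeriv ℝ k (f i) x‖ ≤ C

variable {O : Set E} {f f' : I → E → F} {g : I → E → G}

theorem UB.exists_bound (h : UB O f) :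
    ∃ C : ℕ → ℝ, (∀ k, 0 ≤ C k) ∧ ∀ k i, ∀ x ∈ O, ‖iteratedFDeriv ℝ k (f i) x‖ ≤ C k := by
  choose C hC using h.bdd
  exact ⟨fun k => max (C k) 0, fun k => le_max_right _ _,
    fun k i x hx => (hC k i x hx).trans (le_max_left _ _)⟩

theorem UB.contDiffAt (h : UB O f) (hO : IsOpen O) (i : I) {x : E} (hx : x ∈ O) :
    ContDiffAt ℝ ∞ (f i) x := (h.smooth i).contDiffAt (hO.mem_nhds hx)

theorem UB.mono (h : UB O f) {O' : Set E} (hsub : O' ⊆ O) : UB O' f :=
  ⟨fun i => (h.smooth i).mono hsub, fun k => by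
    obtain ⟨C, hC⟩ := h.bdd k
    exact ⟨C, fun i x hx => hC i x (hsub hx)⟩⟩

/-- reindexing. -/
theorem UB.reindex {J : Type} (h : UB O f) (σ : J → I) : UB O (fun j => f (σ j)) :=
  ⟨fun j => h.smooth (σ j), fun k => by
    obtain ⟨C, hC⟩ := h.bdd k
    exact ⟨C, fun j x hx => hC (σ j) x hx⟩⟩

theorem ub_within (hO : IsOpen O) (φ : E → F) (k : ℕ) {x : E} (hx : x ∈ O) :
    iteratedFDerivWithin ℝ k φ O x = iteratedFDeriv ℝ k φ x :=
  iteratedFDerivWithin_of_isOpen k hO hx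

theorem ub_top_le (k : ℕ) : ((k : ℕ∞) : WithTop ℕ∞) ≤ ∞ := by exact_mod_cast le_top

theorem UB.congr (h : UB O f) (hO : IsOpen O) (heq : ∀ i, Set.EqOn (f' i) (f i) O) : UB O f' := by
  refine ⟨fun i => (h.smooth i).congr (heq i), fun k => ?_⟩
  obtain ⟨C, hC⟩ := h.bdd k
  refine ⟨C, fun i x hx => ?_⟩
  rw [← ub_within hO _ k hx, iteratedFDerivWithin_congr (heq i) hx, ub_within hO _ k hx]
  exact hC i x hx

/-- a bounded family of constants. -/
theorem ub_const {c : I → F} (hc : ∃ C : ℝ, ∀ i, ‖c i‖ ≤ C) : UB O (fun i _ => c i) := by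
  obtain ⟨C, hC⟩ := hc
  refine ⟨fun i => contDiffOn_const, fun k => ⟨max C 0, fun i x _ => ?_⟩⟩
  rcases Nat.eq_zero_or_pos k with rfl | hk
  · rw [norm_iteratedFDeriv_zero]
    exact (hC i).trans (le_max_left _ _)
  · rw [iteratedFDeriv_const_of_ne hk.ne']
    simp

theorem UB.add (hO : IsOpen O) (h : UB O f) (h' : UB O f') : UB O (fun i x => f i x + f' i x) := by
  refine ⟨fun i => (h.smooth i).add (h'.smooth i), fun k => ?_⟩
  obtain ⟨C, hC⟩ := h.bdd k
  obtain ⟨C', hC'⟩ := h'.bdd k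
  refine ⟨C + C', fun i x hx => ?_⟩
  have e : (fun x => f i x + f' i x) = f i + f' i := rfl
  rw [e, iteratedFDeriv_add_apply ((h.contDiffAt hO i hx).of_le (ub_top_le k))
    ((h'.contDiffAt hO i hx).of_le (ub_top_le k))]
  exact (norm_add_le _ _).trans (add_le_add (hC i x hx) (hC' i x hx))

theorem UB.neg (hO : IsOpen O) (h : UB O f) : UB O (fun i x => - f i x) := by
  refine ⟨fun i => (h.smooth i).neg, fun k => ?_⟩
  obtain ⟨C, hC⟩ := h.bdd k
  refine ⟨C, fun i x hx => ?_⟩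
  have e : (fun x => - f i x) = - f i := rfl
  rw [e, iteratedFDeriv_neg_apply, norm_neg]
  exact hC i x hx

theorem UB.sub (hO : IsOpen O) (h : UB O f) (h' : UB O f') : UB O (fun i x => f i x - f' i x) := by
  simpa only [sub_eq_add_neg] using h.add hO (h'.neg hO)

theorem UB.sum (hO : IsOpen O) {α : Type} (s : Finset α) {φ : α → I → E → F}
    (h : ∀ a ∈ s, UB O (φ a)) : UB O (fun i x => ∑ a ∈ s, φ a i x) := by
  classical
  induction s using Finset.induction_on with
  | empty =>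
    simp only [Finset.sum_empty]
    exact ub_const ⟨0, fun _ => by simp⟩
  | insert a s ha ih =>
    simp only [Finset.sum_insert ha]
    exact (h a (Finset.mem_insert_self a s)).add hO
      (ih fun b hb => h b (Finset.mem_insert_of_mem hb))

/-- post-composition with a fixed continuous linear map. -/
theorem UB.clm (hO : IsOpen O) (h : UB O f) (T : F →L[ℝ] G) : UB O (fun i x => T (f i x)) := by
  refine ⟨fun i => T.contDiff.comp_contDiffOn (h.smooth i), fun k => ?_⟩
  obtain ⟨C, hC⟩ := h.bdd k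
  refine ⟨‖T‖ * C, fun i x hx => ?_⟩
  have e : (fun x => T (f i x)) = T ∘ f i := rfl
  rw [e, T.iteratedFDeriv_comp_left (h.contDiffAt hO i hx) (ub_top_le k)]
  exact (T.norm_compContinuousMultilinearMap_le _).trans
    (mul_le_mul_of_nonneg_left (hC i x hx) (norm_nonneg _))

/-- a fixed continuous bilinear map. -/
theorem UB.bilin (hO : IsOpen O) (B : F →L[ℝ] G →L[ℝ] K) (h : UB O f) (h' : UB O g) :
    UB O (fun i x => B (f i x) (g i x)) := by
  refine ⟨fun i => B.isBoundedBilinearMap.contDiff.comp_contDiffOn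
    ((h.smooth i).prodMk (h'.smooth i)), fun k => ?_⟩
  obtain ⟨Cf, hCf0, hCf⟩ := h.exists_bound
  obtain ⟨Cg, hCg0, hCg⟩ := h'.exists_bound
  refine ⟨‖B‖ * ∑ j ∈ Finset.range (k + 1), (k.choose j : ℝ) * Cf j * Cg (k - j),
    fun i x hx => ?_⟩
  have h1 := B.norm_iteratedFDerivWithin_le_of_bilinear (h.smooth i) (h'.smooth i)
    hO.uniqueDiffOn hx (n := k) (ub_top_le k)
  rw [ub_within hO _ k hx] at h1
  refine h1.trans (mul_le_mul_of_nonneg_left (Finset.sum_le_sum fun j _ => ?_) (norm_nonneg B))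
  rw [ub_within hO _ j hx, ub_within hO _ (k - j) hx]
  exact mul_le_mul (mul_le_mul_of_nonneg_left (hCf j i x hx) (Nat.cast_nonneg _))
    (hCg (k - j) i x hx) (norm_nonneg _) (mul_nonneg (Nat.cast_nonneg _) (hCf0 j))

theorem UB.mul {𝔸 : Type} [NormedRing 𝔸] [NormedAlgebra ℝ 𝔸] (hO : IsOpen O) {a b : I → E → 𝔸}
    (ha : UB O a) (hb : UB O b) : UB O (fun i x => a i x * b i x) := by
  exact UB.bilin hO (ContinuousLinearMap.mul ℝ 𝔸) ha hb

theorem UB.smul (hO : IsOpen O) {a : I → E → ℝ} (ha : UB O a) (h : UB O f) :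
    UB O (fun i x => a i x • f i x) := by
  exact UB.bilin hO (ContinuousLinearMap.lsmul ℝ ℝ) ha h

theorem UB.pow {𝔸 : Type} [NormedRing 𝔸] [NormedAlgebra ℝ 𝔸] (hO : IsOpen O) {a : I → E → 𝔸}
    (ha : UB O a) (m : ℕ) : UB O (fun i x => a i x ^ m) := by
  induction m with
  | zero =>
    simp only [pow_zero]
    exact ub_const ⟨‖(1 : 𝔸)‖, fun _ => le_rfl⟩
  | succ m ih =>
    simp only [pow_succ]
    exact ih.mul hO ha

theorem UB.prod {𝔸 : Type} [NormedCommRing 𝔸] [NormedAlgebra ℝ 𝔸] (hO : IsOpen O) {α : Type}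
    (s : Finset α) {φ : α → I → E → 𝔸} (h : ∀ a ∈ s, UB O (φ a)) :
    UB O (fun i x => ∏ a ∈ s, φ a i x) := by
  classical
  induction s using Finset.induction_on with
  | empty =>
    simp only [Finset.prod_empty]
    exact ub_const ⟨‖(1 : 𝔸)‖, fun _ => le_rfl⟩
  | insert a s ha ih =>
    simp only [Finset.prod_insert ha]
    exact (h a (Finset.mem_insert_self a s)).mul hO
      (ih fun b hb => h b (Finset.mem_insert_of_mem hb))

theorem UB.prodMk (hO : IsOpen O) (h : UB O f) (h' : UB O g) : UB O (fun i x => (f i x, g i x)) := by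
  have h1 := (h.clm hO (ContinuousLinearMap.inl ℝ F G)).add hO
    (h'.clm hO (ContinuousLinearMap.inr ℝ F G))
  refine h1.congr hO fun i x _ => ?_
  simp

/-- the derivative. -/
theorem UB.fd (hO : IsOpen O) (h : UB O f) : UB O (fun i x => fderiv ℝ (f i) x) := by
  refine ⟨fun i => (h.smooth i).fderiv_of_isOpen hO (by simp), fun k => ?_⟩
  obtain ⟨C, hC⟩ := h.bdd (k + 1)
  refine ⟨C, fun i x hx => ?_⟩
  have e : (fun x => fderiv ℝ (f i) x) = fderiv ℝ (f i) := rfl
  rw [e, norm_iteratedFDeriv_fderiv]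
  exact hC i x hx

/-- directional derivatives. -/
theorem UB.fd_apply (hO : IsOpen O) (h : UB O f) (v : E) :
    UB O (fun i x => fderiv ℝ (f i) x v) := by
  exact (h.fd hO).clm hO (ContinuousLinearMap.apply ℝ F v)

/-- composition: the outer family only has to be controlled on a set `S` containing the values. -/
theorem UB.comp_of_bddOn (hO : IsOpen O) {U S : Set F} {γ : I → F → G} (hU : IsOpen U)
    (hγ : ∀ i, ContDiffOn ℝ ∞ (γ i) U) (hSU : S ⊆ U)
    (hγb : ∀ k : ℕ, ∃ C : ℝ, ∀ i, ∀ y ∈ S, ‖iteratedFDeriv ℝ k (γ i) y‖ ≤ C)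
    (h : UB O f) (hmem : ∀ i, ∀ x ∈ O, f i x ∈ S) : UB O (fun i x => γ i (f i x)) := by
  refine ⟨fun i => (hγ i).comp (h.smooth i) fun x hx => hSU (hmem i x hx), fun k => ?_⟩
  obtain ⟨Cf, hCf0, hCf⟩ := h.exists_bound
  choose Cg hCg using hγb
  set C : ℝ := ∑ j ∈ Finset.range (k + 1), max (Cg j) 0 with hC
  set D : ℝ := 1 + ∑ j ∈ Finset.range (k + 1), Cf j with hD
  have hD1 : 1 ≤ D := by
    have : 0 ≤ ∑ j ∈ Finset.range (k + 1), Cf j := Finset.sum_nonneg fun j _ => hCf0 j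
    rw [hD]; linarith
  refine ⟨(k.factorial : ℝ) * C * D ^ k, fun i x hx => ?_⟩
  have h1 := norm_iteratedFDerivWithin_comp_le (g := γ i) (f := f i) (n := k) (x := x)
    (C := C) (D := D) (hγ i) (h.smooth i) (ub_top_le k) hU.uniqueDiffOn hO.uniqueDiffOn
    (fun x hx => hSU (hmem i x hx)) hx ?_ ?_
  · rw [ub_within hO _ k hx] at h1
    exact h1
  · intro j hj
    rw [ub_within hU _ j (hSU (hmem i x hx))]
    refine (hCg j i _ (hmem i x hx)).trans ((le_max_left _ (0 : ℝ)).trans ?_)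
    exact Finset.single_le_sum (f := fun j => max (Cg j) 0) (fun j _ => le_max_right _ _)
      (Finset.mem_range.2 (Nat.lt_succ_of_le hj))
  · intro j hj1 hj
    rw [ub_within hO _ j hx]
    refine (hCf j i x hx).trans ?_
    have h2 : Cf j ≤ D := by
      have := Finset.single_le_sum (f := Cf) (fun j _ => hCf0 j)
        (Finset.mem_range.2 (Nat.lt_succ_of_le hj))
      rw [hD]; linarith
    exact h2.trans (le_self_pow₀ hD1 (by omega))

theorem UB.comp (hO : IsOpen O) {U : Set F} {γ : I → F → G} (hU : IsOpen U) (hγ : UB U γ)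
    (h : UB O f) (hmem : ∀ i, ∀ x ∈ O, f i x ∈ U) : UB O (fun i x => γ i (f i x)) :=
  UB.comp_of_bddOn hO hU hγ.smooth subset_rfl hγ.bdd h hmem

/-- a fixed outer function, smooth near a compact set containing all the values. -/
theorem UB.comp_compact (hO : IsOpen O) {U S : Set F} {γ : F → G} (hU : IsOpen U)
    (hγ : ContDiffOn ℝ ∞ γ U) (hS : IsCompact S) (hSU : S ⊆ U) (h : UB O f)
    (hmem : ∀ i, ∀ x ∈ O, f i x ∈ S) : UB O (fun i x => γ (f i x)) := by
  refine UB.comp_of_bddOn hO (γ := fun _ => γ) hU (fun _ => hγ) hSU (fun k => ?_) h hmem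
  have hc : ContinuousOn (iteratedFDeriv ℝ k γ) S := by
    have h1 := (hγ.continuousOn_iteratedFDerivWithin (ub_top_le k) hU.uniqueDiffOn).mono hSU
    exact h1.congr fun y hy => (ub_within hU γ k (hSU hy)).symm
  obtain ⟨C, hC⟩ := hS.exists_bound_of_continuousOn hc
  exact ⟨C, fun _ y hy => hC y hy⟩

/-- a fixed continuous linear map on a bounded set. -/
theorem ub_clm (T : E →L[ℝ] F) (hb : Bornology.IsBounded O) : UB O (fun (_ : I) x => T x) := by
  refine ⟨fun _ => T.contDiff.contDiffOn, fun k => ?_⟩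
  obtain ⟨R, hR⟩ := hb.exists_norm_le
  refine ⟨max (‖T‖ * max R 0) ‖T‖, fun _ x hx => ?_⟩
  rcases k with _ | k
  · rw [norm_iteratedFDeriv_zero]
    refine le_trans ?_ (le_max_left _ _)
    exact (T.le_opNorm x).trans
      (mul_le_mul_of_nonneg_left ((hR x hx).trans (le_max_left _ _)) (norm_nonneg _))
  · have e : fderiv ℝ (fun x => T x) = fun _ => T := by
      funext y; exact T.fderiv
    rw [← norm_iteratedFDeriv_fderiv, e]
    rcases Nat.eq_zero_or_pos k with rfl | hk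
    · rw [norm_iteratedFDeriv_zero]
      exact le_max_right _ _
    · rw [iteratedFDeriv_const_of_ne hk.ne']
      simp

/-- pre-composition with a fixed affine map. -/
theorem UB.comp_affine {E' : Type} [NormedAddCommGroup E'] [NormedSpace ℝ E'] (hO : IsOpen O)
    (h : UB O f) {O' : Set E'} (hO' : IsOpen O') (T : E' →L[ℝ] E) (a : E)
    (hmaps : ∀ x ∈ O', a + T x ∈ O) : UB O' (fun i x => f i (a + T x)) := by
  have hA : ContDiff ℝ ∞ (fun x : E' => a + T x) := contDiff_const.add T.contDiff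
  refine ⟨fun i => (h.smooth i).comp hA.contDiffOn hmaps, fun k => ?_⟩
  obtain ⟨C, hC0, hC⟩ := h.exists_bound
  refine ⟨C k * ‖T‖ ^ k, fun i x hx => ?_⟩
  set s : Set E := {z | a + z ∈ O} with hs
  have hso : IsOpen s := hO.preimage (continuous_const.add continuous_id)
  have hfs : ContDiffOn ℝ ∞ (fun z => f i (a + z)) s :=
    (h.smooth i).comp (contDiff_const.add contDiff_id).contDiffOn fun z hz => hz
  have hso' : IsOpen (T ⁻¹' s) := hso.preimage T.continuous
  have hxs : T x ∈ s := hmaps x hx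
  have h1 := T.iteratedFDerivWithin_comp_right hfs hso.uniqueDiffOn hso'.uniqueDiffOn hxs
    (i := k) (ub_top_le k)
  rw [ub_within hso' _ k hxs, ub_within hso _ k hxs, iteratedFDeriv_comp_add_left] at h1
  have e : (fun x => f i (a + T x)) = (fun z => f i (a + z)) ∘ T := rfl
  rw [e, h1]
  refine (ContinuousMultilinearMap.norm_compContinuousLinearMap_le _ _).trans ?_
  rw [Finset.prod_const, Finset.card_univ, Fintype.card_fin]
  exact mul_le_mul_of_nonneg_right (hC k i _ hxs) (by positivity)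

/-! ### consequences -/

theorem UB.bound (h : UB O f) : ∃ C : ℝ, 0 ≤ C ∧ ∀ i, ∀ x ∈ O, ‖f i x‖ ≤ C := by
  obtain ⟨C, hC0, hC⟩ := h.exists_bound
  refine ⟨C 0, hC0 0, fun i x hx => ?_⟩
  rw [← norm_iteratedFDeriv_zero (𝕜 := ℝ)]
  exact hC 0 i x hx

theorem UB.bound_fderiv (h : UB O f) : ∃ C : ℝ, 0 ≤ C ∧ ∀ i, ∀ x ∈ O, ‖fderiv ℝ (f i) x‖ ≤ C := by
  obtain ⟨C, hC0, hC⟩ := h.exists_bound
  refine ⟨C 1, hC0 1, fun i x hx => ?_⟩
  rw [← norm_iteratedFDeriv_one]
  exact hC 1 i x hx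

theorem UB.lipschitz (hO : IsOpen O) (hconv : Convex ℝ O) (h : UB O f) :
    ∃ C : ℝ, 0 ≤ C ∧ ∀ i, ∀ x ∈ O, ∀ y ∈ O, ‖f i x - f i y‖ ≤ C * ‖x - y‖ := by
  obtain ⟨C, hC0, hC⟩ := h.bound_fderiv
  refine ⟨C, hC0, fun i x hx y hy => ?_⟩
  exact Convex.norm_image_sub_le_of_norm_fderiv_le (𝕜 := ℝ)
    (fun z hz => (h.contDiffAt hO i hz).differentiableAt (by simp)) (hC i) hconv hy hx

/-- uniform Lipschitz bound of the second derivative, as a quadratic form. -/
theorem UB.snd_lipschitz (hO : IsOpen O) (hconv : Convex ℝ O) {u : I → E → ℝ} (h : UB O u) :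
    ∃ C : ℝ, 0 ≤ C ∧ ∀ i, ∀ x ∈ O, ∀ y ∈ O, ∀ v : E,
      |fderiv ℝ (fun w => fderiv ℝ (u i) w v) x v - fderiv ℝ (fun w => fderiv ℝ (u i) w v) y v|
        ≤ C * ‖x - y‖ * ‖v‖ ^ 2 := by
  obtain ⟨C, hC0, hC⟩ := ((h.fd hO).fd hO).lipschitz hO hconv
  refine ⟨C, hC0, fun i x hx y hy v => ?_⟩
  have key : ∀ z ∈ O, fderiv ℝ (fun w => fderiv ℝ (u i) w v) z v
      = fderiv ℝ (fun w => fderiv ℝ (u i) w) z v v := by
    intro z hz
    have h3 : DifferentiableAt ℝ (fun w => fderiv ℝ (u i) w) z :=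
      ((h.fd hO).contDiffAt hO i hz).differentiableAt (by simp)
    have h4 := h3.hasFDerivAt.clm_apply (hasFDerivAt_const v z)
    rw [h4.fderiv]
    simp
  rw [key x hx, key y hy, ← sub_apply, ← sub_apply,
    ← Real.norm_eq_abs]
  calc ‖(fderiv ℝ (fun w => fderiv ℝ (u i) w) x - fderiv ℝ (fun w => fderiv ℝ (u i) w) y) v v‖
      ≤ ‖(fderiv ℝ (fun w => fderiv ℝ (u i) w) x - fderiv ℝ (fun w => fderiv ℝ (u i) w) y) v‖
        * ‖v‖ := ContinuousLinearMap.le_opNorm _ _
    _ ≤ ‖fderiv ℝ (fun w => fderiv ℝ (u i) w) x - fderiv ℝ (fun w => fderiv ℝ (u i) w) y‖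
        * ‖v‖ * ‖v‖ :=
        mul_le_mul_of_nonneg_right (ContinuousLinearMap.le_opNorm _ _) (norm_nonneg _)
    _ ≤ C * ‖x - y‖ * ‖v‖ * ‖v‖ := by
        gcongr
        exact hC i x hx y hy
    _ = _ := by ring

/-- one variable: bounds for the iterated `deriv`. -/
theorem UB.dv {O : Set ℝ} (hO : IsOpen O) {φ : I → ℝ → F} (h : UB O φ) :
    UB O (fun i s => deriv (φ i) s) := by
  exact h.fd_apply hO 1

end ub

/-!
## Section `almostMin`, leaf L-S7-5-3: the almost minimum lemma (~300 lines, one real variable)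

PROVED (helper11); auxiliary lemmas: prefix `am_`.

`φ_i ≥ 0` on `(-ρ, ρ)`, all derivatives bounded uniformly in `i`, `φ_i(0) → 0`.  Then `φ_i'(0) → 0` and `liminf φ_i''(0) ≥ 0`.

PROOF.  `K` = a common bound of `|φ''|`, `|φ'''|` on `(-ρ, ρ)` (`UB.dv` three times, `UB.bound`).  Taylor with Lagrange / mean value remainder (`taylor_mean_remainder_lagrange`, or integrate twice with
`Convex.norm_image_sub_le_of_norm_deriv_le`; or apply the mean value inequality to `s ↦ φ s - φ 0 - s φ' 0 ∓ K s²/2`):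
* `am_taylor2`:  `|φ s - φ 0 - s φ' 0| ≤ K s² / 2`;
* `am_taylor3`:  `|φ s + φ (-s) - 2 φ 0 - s² φ'' 0| ≤ K |s|³ / 3` (any constant will do).
From `0 ≤ φ (∓ s)`:  `± s φ' 0 ≤ φ 0 + K s² / 2`, so `|φ' 0| ≤ φ 0 / s + K s / 2` for `0 < s < ρ`;  from `0 ≤ φ s + φ (-s)`:  `φ'' 0 ≥ - 2 φ 0 / s² - K s / 3`.
Given `ε`, fix `s ∈ (0, ρ)` with `K s ≤ ε`, then use `φ_i 0 → 0` (`Filter.Tendsto.eventually_lt` …).
-/

section almostMin

open Filter

variable {I : Type}

theorem am_first {G G' : ℝ → ℝ} {s M : ℝ} (hG : ∀ x ∈ Set.Icc 0 s, HasDerivAt G (G' x) x)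
    (hM : ∀ x ∈ Set.Icc 0 s, G' x ≤ M) {x : ℝ} (hx : x ∈ Set.Icc 0 s) : G x ≤ G 0 + M * x := by
  have hd : ∀ y ∈ Set.Icc 0 s, HasDerivAt (fun y => G y - M * y) (G' y - M) y := fun y hy => by
    have h : HasDerivAt (fun y => G y - M * y) (G' y - M * 1) y :=
      (hG y hy).sub ((hasDerivAt_id y).const_mul M)
    rwa [mul_one] at h
  have hanti : AntitoneOn (fun y => G y - M * y) (Set.Icc 0 s) := by
    refine antitoneOn_of_deriv_nonpos (convex_Icc 0 s)
      (fun y hy => (hd y hy).continuousAt.continuousWithinAt) ?_ ?_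
    · intro y hy
      exact (hd y (interior_subset hy)).differentiableAt.differentiableWithinAt
    · intro y hy
      rw [(hd y (interior_subset hy)).deriv]
      linarith [hM y (interior_subset hy)]
  have := hanti (Set.left_mem_Icc.2 (hx.1.trans hx.2)) hx hx.1
  simp only [mul_zero, sub_zero] at this
  linarith

theorem am_second {g g' g'' : ℝ → ℝ} {s K : ℝ} (hs : 0 ≤ s)
    (h1 : ∀ x ∈ Set.Icc 0 s, HasDerivAt g (g' x) x)
    (h2 : ∀ x ∈ Set.Icc 0 s, HasDerivAt g' (g'' x) x) (hK : ∀ x ∈ Set.Icc 0 s, g'' x ≤ K) :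
    g s ≤ g 0 + s * g' 0 + K * s ^ 2 / 2 := by
  have hd : ∀ y ∈ Set.Icc 0 s, HasDerivAt (fun y => g y - g' 0 * y - K * y ^ 2 / 2)
      (g' y - g' 0 - K * y) y := fun y hy => by
    have e1 : HasDerivAt (fun y : ℝ => K * y ^ 2 / 2) (K * y) y := by
      have h : HasDerivAt (fun y : ℝ => K * y ^ 2 / 2) (K * (((2 : ℕ) : ℝ) * y ^ (2 - 1) * 1) / 2) y :=
        (((hasDerivAt_id y).pow 2).const_mul K).div_const 2
      convert h using 1
      norm_num
      ring
    have e2 : HasDerivAt (fun y : ℝ => g' 0 * y) (g' 0) y := by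
      simpa using (hasDerivAt_id y).const_mul (g' 0)
    exact ((h1 y hy).sub e2).sub e1
  have := am_first (G := fun y => g y - g' 0 * y - K * y ^ 2 / 2) (M := 0) hd
    (fun y hy => by linarith [am_first h2 hK hy]) (Set.right_mem_Icc.2 hs)
  simp only [mul_zero, sub_zero, zero_mul, add_zero] at this
  norm_num at this
  linarith

/-- quantitative form for one function. -/
theorem am_one {φ : ℝ → ℝ} {ρ K : ℝ} (hφ : ContDiffOn ℝ ∞ φ (Set.Ioo (-ρ) ρ))
    (hpos : ∀ s ∈ Set.Ioo (-ρ) ρ, 0 ≤ φ s)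
    (h2 : ∀ s ∈ Set.Ioo (-ρ) ρ, |deriv (deriv φ) s| ≤ K)
    (h3 : ∀ s ∈ Set.Ioo (-ρ) ρ, |deriv (deriv (deriv φ)) s| ≤ K) {s : ℝ} (hs : 0 < s) (hsρ : s < ρ) :
    |deriv φ 0| ≤ φ 0 / s + K * s ∧ - (2 * φ 0 / s ^ 2 + K * s) ≤ deriv (deriv φ) 0 := by
  have hop : IsOpen (Set.Ioo (-ρ) ρ) := isOpen_Ioo
  have c1 : ContDiffOn ℝ ∞ (deriv φ) (Set.Ioo (-ρ) ρ) := hφ.deriv_of_isOpen hop (by simp)
  have c2 : ContDiffOn ℝ ∞ (deriv (deriv φ)) (Set.Ioo (-ρ) ρ) := c1.deriv_of_isOpen hop (by simp)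
  have hd : ∀ {ψ : ℝ → ℝ}, ContDiffOn ℝ ∞ ψ (Set.Ioo (-ρ) ρ) → ∀ x ∈ Set.Ioo (-ρ) ρ,
      HasDerivAt ψ (deriv ψ x) x := fun hψ x hx =>
    ((hψ.contDiffAt (hop.mem_nhds hx)).differentiableAt (by simp)).hasDerivAt
  have hdn : ∀ {ψ : ℝ → ℝ}, ContDiffOn ℝ ∞ ψ (Set.Ioo (-ρ) ρ) → ∀ x ∈ Set.Ioo (-ρ) ρ,
      HasDerivAt (fun y => ψ (-y)) (- deriv ψ (-x)) x := fun {ψ} hψ x hx => by
    have h1 := hd hψ (-x) ⟨by linarith [hx.2], by linarith [hx.1]⟩
    have h : HasDerivAt (fun y => ψ (-y)) ((-1 : ℝ) • deriv ψ (-x)) x :=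
      h1.scomp x (hasDerivAt_neg x)
    simpa using h
  have hsub : ∀ x ∈ Set.Icc 0 s, x ∈ Set.Ioo (-ρ) ρ := fun x hx =>
    ⟨by linarith [hx.1], by linarith [hx.2]⟩
  have hsubn : ∀ x ∈ Set.Icc 0 s, -x ∈ Set.Ioo (-ρ) ρ := fun x hx =>
    ⟨by linarith [hx.2], by linarith [hx.1]⟩
  have h0 : (0 : ℝ) ∈ Set.Ioo (-ρ) ρ := ⟨by linarith, by linarith⟩
  have hK0 : 0 ≤ K := (abs_nonneg _).trans (h2 0 h0)
  have hsI : s ∈ Set.Icc 0 s := ⟨hs.le, le_rfl⟩
  -- second order, both directions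
  have A1 := am_second (g := φ) (g' := deriv φ) (g'' := deriv (deriv φ)) (K := K) hs.le
    (fun x hx => hd hφ x (hsub x hx)) (fun x hx => hd c1 x (hsub x hx))
    (fun x hx => (le_abs_self _).trans (h2 x (hsub x hx)))
  have A2 := am_second (g := fun y => φ (-y)) (g' := fun y => - deriv φ (-y))
    (g'' := fun y => deriv (deriv φ) (-y)) (K := K) hs.le
    (fun x hx => hdn hφ x (hsub x hx))
    (fun x hx => by
      have h : HasDerivAt (fun y => - deriv φ (-y)) (- - deriv (deriv φ) (-x)) x :=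
        (hdn c1 x (hsub x hx)).neg
      rwa [neg_neg] at h)
    (fun x hx => (le_abs_self _).trans (h2 _ (hsubn x hx)))
  simp only [neg_zero] at A2
  have P1 := hpos s (hsub s hsI)
  have P2 := hpos (-s) (hsubn s hsI)
  constructor
  · have e : φ 0 / s + K * s = (φ 0 + K * s ^ 2) / s := by field_simp
    rw [e, le_div_iff₀ hs]
    have hKs : 0 ≤ K * s ^ 2 := by positivity
    rcases abs_cases (deriv φ 0) with ⟨h, -⟩ | ⟨h, -⟩ <;> rw [h] <;> nlinarith
  · -- the even part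
    have B1 : ∀ x ∈ Set.Icc 0 s, deriv (deriv φ) x ≤ deriv (deriv φ) 0 + K * x := fun x hx =>
      am_first (G := deriv (deriv φ)) (G' := deriv (deriv (deriv φ))) (M := K)
        (fun y hy => hd c2 y (hsub y hy))
        (fun y hy => (le_abs_self _).trans (h3 y (hsub y hy))) hx
    have B2 : ∀ x ∈ Set.Icc 0 s, deriv (deriv φ) (-x) ≤ deriv (deriv φ) 0 + K * x := fun x hx => by
      have := am_first (G := fun y => deriv (deriv φ) (-y))
        (G' := fun y => - deriv (deriv (deriv φ)) (-y)) (M := K)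
        (fun y hy => hdn c2 y (hsub y hy))
        (fun y hy => (neg_le_abs _).trans (h3 _ (hsubn y hy))) hx
      simpa using this
    have A3 := am_second (g := fun y => φ y + φ (-y)) (g' := fun y => deriv φ y + - deriv φ (-y))
      (g'' := fun y => deriv (deriv φ) y + deriv (deriv φ) (-y))
      (K := 2 * deriv (deriv φ) 0 + 2 * K * s) hs.le
      (fun x hx => (hd hφ x (hsub x hx)).add (hdn hφ x (hsub x hx)))
      (fun x hx => by
        have h : HasDerivAt (fun y => - deriv φ (-y)) (- - deriv (deriv φ) (-x)) x :=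
          (hdn c1 x (hsub x hx)).neg
        rw [neg_neg] at h
        exact (hd c1 x (hsub x hx)).add h)
      (fun x hx => by
        have b1 := B1 x hx
        have b2 := B2 x hx
        have : K * x ≤ K * s := mul_le_mul_of_nonneg_left hx.2 hK0
        linarith)
    simp only [neg_zero, add_neg_cancel, mul_zero, add_zero] at A3
    have hs2 : 0 < s ^ 2 := by positivity
    have e : 2 * φ 0 / s ^ 2 + K * s = (2 * φ 0 + K * s * s ^ 2) / s ^ 2 := by field_simp
    rw [e, neg_le, le_div_iff₀ hs2]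
    nlinarith

/-- **almost minimum lemma**. -/
theorem almostMin {l : Filter I} {ρ : ℝ} (hρ : 0 < ρ) {φ : I → ℝ → ℝ} (hφ : UB (Set.Ioo (-ρ) ρ) φ)
    (hpos : ∀ i, ∀ s ∈ Set.Ioo (-ρ) ρ, 0 ≤ φ i s) (h0 : Tendsto (fun i => φ i 0) l (𝓝 0)) :
    Tendsto (fun i => deriv (φ i) 0) l (𝓝 0) ∧
      ∀ ε : ℝ, 0 < ε → ∀ᶠ i in l, - ε ≤ deriv (deriv (φ i)) 0 := by
  have hop : IsOpen (Set.Ioo (-ρ) ρ) := isOpen_Ioo
  obtain ⟨K2, hK20, hK2⟩ := ((hφ.dv hop).dv hop).bound
  obtain ⟨K3, hK30, hK3⟩ := (((hφ.dv hop).dv hop).dv hop).bound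
  set K := max K2 K3 with hK
  have hK0 : 0 ≤ K := hK20.trans (le_max_left _ _)
  have hone : ∀ i, ∀ s : ℝ, 0 < s → s < ρ →
      |deriv (φ i) 0| ≤ φ i 0 / s + K * s ∧
        - (2 * φ i 0 / s ^ 2 + K * s) ≤ deriv (deriv (φ i)) 0 := fun i s hs hsρ =>
    am_one (hφ.smooth i) (hpos i)
      (fun x hx => (hK2 i x hx).trans (le_max_left _ _))
      (fun x hx => (hK3 i x hx).trans (le_max_right _ _)) hs hsρ
  have hchoose : ∀ ε : ℝ, 0 < ε → ∃ s : ℝ, 0 < s ∧ s < ρ ∧ K * s ≤ ε / 2 := by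
    intro ε hε
    refine ⟨min (ρ / 2) (ε / (2 * (K + 1))), by positivity,
      (min_le_left _ _).trans_lt (by linarith), ?_⟩
    calc K * min (ρ / 2) (ε / (2 * (K + 1))) ≤ K * (ε / (2 * (K + 1))) :=
          mul_le_mul_of_nonneg_left (min_le_right _ _) hK0
      _ = (K / (K + 1)) * (ε / 2) := by field_simp
      _ ≤ 1 * (ε / 2) := by
          apply mul_le_mul_of_nonneg_right _ (by positivity)
          rw [div_le_one (by positivity)]
          linarith
      _ = ε / 2 := one_mul _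
  constructor
  · rw [Metric.tendsto_nhds]
    intro ε hε
    obtain ⟨s, hs, hsρ, hKs⟩ := hchoose ε hε
    have hev : ∀ᶠ i in l, φ i 0 < ε / 2 * s := h0.eventually_lt_const (by positivity)
    filter_upwards [hev] with i hi
    rw [Real.dist_eq, sub_zero]
    have h1 := (hone i s hs hsρ).1
    have h2 : φ i 0 / s < ε / 2 := by rwa [div_lt_iff₀ hs]
    linarith
  · intro ε hε
    obtain ⟨s, hs, hsρ, hKs⟩ := hchoose ε hε
    have hev : ∀ᶠ i in l, φ i 0 < ε / 4 * s ^ 2 := h0.eventually_lt_const (by positivity)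
    filter_upwards [hev] with i hi
    have h1 := (hone i s hs hsρ).2
    have h2 : 2 * φ i 0 / s ^ 2 < ε / 2 := by
      rw [div_lt_iff₀ (by positivity)]
      linarith
    linarith

end almostMin

/-!
## Section `concaveFn`, leaf L-S7-5-10: strictly concave functions on a ball (~350 lines)

Auxiliary lemmas: prefix `inj_`.
SECTION `concaveFn` (Mathlib only; `E` a finite dimensional real normed space, `f` of class `C²` on `ball 0 r`, `D²f(w)(v,v) ≤ - a ‖v‖²`).
Along a segment `σ s = x + s (y - x)` in the ball, `ψ = f ∘ σ` has `ψ' s = Df(σ s)(y - x)`, `ψ'' s = D²f(σ s)(y-x,y-x) ≤ - a ‖y - x‖²`; so `s ↦ ψ' s + a ‖y-x‖² s` is antitone (`antitoneOn_of_deriv_nonpos`).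
* `concave_fderiv_le`: `Df(y)(y - x) ≤ Df(x)(y - x) - a ‖y - x‖²`.   * `crit_unique`: both derivatives vanish ⟹ `0 ≤ - a ‖y - x‖²`.
* `concave_le`: `f y ≤ f x + Df(x)(y - x) - a ‖y - x‖² / 2` (integrate once more, or the mean value inequality for `ψ s - ψ' 0 s + a ‖y-x‖² s²/2`).
* `exists_crit`: `f` attains its maximum over the compact `closedBall 0 ρ` at `z`; on the sphere `f w ≤ f 0 + η ρ - a ρ²/2 < f 0`, so `‖z‖ < ρ`, `IsLocalMax.fderiv_eq_zero`.
-/

section concaveFn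

variable {E : Type} [NormedAddCommGroup E] [NormedSpace ℝ E]
variable {f : E → ℝ} {r a : ℝ}

theorem inj_seg (hf : ContDiffOn ℝ 2 f (Metric.ball 0 r)) {x y : E}
    (hx : x ∈ Metric.ball (0 : E) r) (hy : y ∈ Metric.ball (0 : E) r) :
    (∀ s ∈ Set.Icc (0 : ℝ) 1, x + s • (y - x) ∈ Metric.ball (0 : E) r) ∧
    (∀ s ∈ Set.Icc (0 : ℝ) 1, HasDerivAt (fun s : ℝ => f (x + s • (y - x)))
      (fderiv ℝ f (x + s • (y - x)) (y - x)) s) ∧
    (∀ s ∈ Set.Icc (0 : ℝ) 1, HasDerivAt (fun s : ℝ => fderiv ℝ f (x + s • (y - x)) (y - x))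
      (fderiv ℝ (fun w => fderiv ℝ f w (y - x)) (x + s • (y - x)) (y - x)) s) := by
  have hmem : ∀ s ∈ Set.Icc (0 : ℝ) 1, x + s • (y - x) ∈ Metric.ball (0 : E) r := fun s hs =>
    (convex_ball (0 : E) r).add_smul_sub_mem hx hy hs
  have hline : ∀ s : ℝ, HasDerivAt (fun s : ℝ => x + s • (y - x)) (y - x) s := fun s => by
    simpa using ((hasDerivAt_id s).smul_const (y - x)).const_add x
  have hcd : ∀ z ∈ Metric.ball (0 : E) r, ContDiffAt ℝ 2 f z := fun z hz =>
    hf.contDiffAt (Metric.isOpen_ball.mem_nhds hz)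
  refine ⟨hmem, fun s hs => ?_, fun s hs => ?_⟩
  · have hd : DifferentiableAt ℝ f (x + s • (y - x)) :=
      (hcd _ (hmem s hs)).differentiableAt (by norm_num)
    exact hd.hasFDerivAt.comp_hasDerivAt s (hline s)
  · have h3 : DifferentiableAt ℝ (fderiv ℝ f) (x + s • (y - x)) :=
      ((hcd _ (hmem s hs)).fderiv_right (m := 1) (by norm_num)).differentiableAt (by norm_num)
    have hd : DifferentiableAt ℝ (fun w => fderiv ℝ f w (y - x)) (x + s • (y - x)) :=
      h3.clm_apply (differentiableAt_const (y - x))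
    exact hd.hasFDerivAt.comp_hasDerivAt s (hline s)

theorem concave_fderiv_le (hf : ContDiffOn ℝ 2 f (Metric.ball 0 r))
    (hconc : ∀ w ∈ Metric.ball (0 : E) r, ∀ v : E,
      fderiv ℝ (fun y => fderiv ℝ f y v) w v ≤ - a * ‖v‖ ^ 2)
    {x y : E} (hx : x ∈ Metric.ball (0 : E) r) (hy : y ∈ Metric.ball (0 : E) r) :
    fderiv ℝ f y (y - x) ≤ fderiv ℝ f x (y - x) - a * ‖y - x‖ ^ 2 := by
  obtain ⟨hmem, -, h2⟩ := inj_seg hf hx hy
  have := am_first (G := fun s : ℝ => fderiv ℝ f (x + s • (y - x)) (y - x))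
    (M := - a * ‖y - x‖ ^ 2) h2 (fun s hs => hconc _ (hmem s hs) _)
    (Set.right_mem_Icc.2 zero_le_one)
  simp only [one_smul, zero_smul, add_zero, add_sub_cancel, mul_one] at this
  linarith

theorem concave_le (hf : ContDiffOn ℝ 2 f (Metric.ball 0 r))
    (hconc : ∀ w ∈ Metric.ball (0 : E) r, ∀ v : E,
      fderiv ℝ (fun y => fderiv ℝ f y v) w v ≤ - a * ‖v‖ ^ 2)
    {x y : E} (hx : x ∈ Metric.ball (0 : E) r) (hy : y ∈ Metric.ball (0 : E) r) :
    f y ≤ f x + fderiv ℝ f x (y - x) - a * ‖y - x‖ ^ 2 / 2 := by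
  obtain ⟨hmem, h1, h2⟩ := inj_seg hf hx hy
  have := am_second (g := fun s : ℝ => f (x + s • (y - x)))
    (K := - a * ‖y - x‖ ^ 2) zero_le_one h1 h2 (fun s hs => hconc _ (hmem s hs) _)
  simp only [one_smul, zero_smul, add_zero, add_sub_cancel, one_mul, one_pow, mul_one] at this
  linarith

theorem crit_unique (hf : ContDiffOn ℝ 2 f (Metric.ball 0 r)) (ha : 0 < a)
    (hconc : ∀ w ∈ Metric.ball (0 : E) r, ∀ v : E,
      fderiv ℝ (fun y => fderiv ℝ f y v) w v ≤ - a * ‖v‖ ^ 2)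
    {x y : E} (hx : x ∈ Metric.ball (0 : E) r) (hy : y ∈ Metric.ball (0 : E) r)
    (h1 : fderiv ℝ f x = 0) (h2 : fderiv ℝ f y = 0) : x = y := by
  have h := concave_fderiv_le hf hconc hx hy
  rw [h1, h2] at h
  simp only [ContinuousLinearMap.zero_apply, zero_sub] at h
  have h3 : ‖y - x‖ ^ 2 ≤ 0 := by nlinarith
  have h4 : ‖y - x‖ = 0 := by
    have := sq_nonneg ‖y - x‖
    exact pow_eq_zero_iff (two_ne_zero) |>.1 (le_antisymm h3 this)
  exact (sub_eq_zero.1 (norm_eq_zero.1 h4)).symm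

theorem exists_crit [FiniteDimensional ℝ E] (hf : ContDiffOn ℝ 2 f (Metric.ball 0 r)) (ha : 0 < a)
    (hconc : ∀ w ∈ Metric.ball (0 : E) r, ∀ v : E,
      fderiv ℝ (fun y => fderiv ℝ f y v) w v ≤ - a * ‖v‖ ^ 2)
    {η ρ : ℝ} (hη : ‖fderiv ℝ f 0‖ ≤ η) (hρ : 2 * η < a * ρ) (hρ0 : 0 < ρ) (hρr : ρ < r) :
    ∃ z ∈ Metric.ball (0 : E) ρ, fderiv ℝ f z = 0 := by
  have hsub : Metric.closedBall (0 : E) ρ ⊆ Metric.ball 0 r := Metric.closedBall_subset_ball hρr
  have hc : ContinuousOn f (Metric.closedBall (0 : E) ρ) := hf.continuousOn.mono hsub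
  obtain ⟨z, hz, hmax⟩ := (isCompact_closedBall (0 : E) ρ).exists_isMaxOn
    ⟨0, Metric.mem_closedBall_self hρ0.le⟩ hc
  have h0r : (0 : E) ∈ Metric.ball (0 : E) r := Metric.mem_ball_self (hρ0.trans hρr)
  have hzlt : ‖z‖ < ρ := by
    by_contra hcon
    have hzρ : ‖z‖ = ρ := le_antisymm (by simpa using hz) (not_lt.1 hcon)
    have h1 := concave_le hf hconc h0r (hsub hz)
    rw [sub_zero, hzρ] at h1
    have h2 : fderiv ℝ f 0 z ≤ η * ρ := by
      calc fderiv ℝ f 0 z ≤ ‖fderiv ℝ f 0 z‖ := le_abs_self _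
        _ ≤ ‖fderiv ℝ f 0‖ * ‖z‖ := ContinuousLinearMap.le_opNorm _ _
        _ ≤ η * ρ := by rw [hzρ]; exact mul_le_mul_of_nonneg_right hη hρ0.le
    have h3 : f 0 ≤ f z := hmax (Metric.mem_closedBall_self hρ0.le)
    nlinarith
  have hzb : z ∈ Metric.ball (0 : E) ρ := by simpa using hzlt
  refine ⟨z, hzb, ?_⟩
  have hloc : IsLocalMax f z := by
    filter_upwards [Metric.isOpen_ball.mem_nhds hzb] with w hw
    exact hmax (Metric.ball_subset_closedBall hw)
  exact hloc.fderiv_eq_zero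

end concaveFn

/-!
## Section `topo`, leaf L-S7-5-12: exhaustion by embedded compact convex sets implies simple connectivity (~250 lines)

PROVED (helper11); auxiliary lemmas: prefix `tp_`.

PROOF.  `isSimplyConnected_iff_exists_homotopy_refl_forall_mem` (`Mathlib/AlgebraicTopology/FundamentalGroupoid/SimplyConnected.lean`): it suffices to contract, inside `S`, every loop `p : Path x x` of `V` with values in `S`.
`K = Set.range p` is compact (`isCompact_range p.continuous`).  Take `B, φ` for `K`.  `φ` restricted to the compact `B` is injective and continuous into a Hausdorff space, so `ψ = Function.invFunOn φ B` is continuous on `φ '' B`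
(`IsCompact`: closed subsets of `B` are compact, their images are compact, hence closed; or `Continuous.isClosedEmbedding` for `B.restrict φ` and `Topology.IsEmbedding.toHomeomorph`).  `p̃ = ψ ∘ p : unitInterval → E` is continuous with values in `B`,
`φ (p̃ s) = p s`, `p̃ 0 = p̃ 1 = ψ x`.  `F (t, s) = φ ((1 - t) • p̃ s + t • ψ x)`: values of the inner map in `B` by convexity, so `F` is continuous (`ContinuousOn.comp_continuous`), has values in `S`,
`F (0, s) = p s`, `F (1, s) = x`, `F (t, 0) = F (t, 1) = φ (ψ x) = x`.  Build `Path.Homotopy` = `ContinuousMap.HomotopyRel` with these fields.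
-/

section topo

open scoped unitInterval in
/-- continuous lift of a map with values in the image of a compact set under an injective continuous map. -/
theorem tp_lift {V E X : Type} [TopologicalSpace V] [T2Space V] [TopologicalSpace E]
    [TopologicalSpace X] {B : Set E} {φ : E → V} (hB : IsCompact B) (hφ : ContinuousOn φ B)
    (hinj : Set.InjOn φ B) {p : X → V} (hp : Continuous p) (hpB : ∀ t, p t ∈ φ '' B) :
    ∃ q : X → E, Continuous q ∧ (∀ t, q t ∈ B) ∧ ∀ t, φ (q t) = p t := by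
  have : CompactSpace B := isCompact_iff_compactSpace.1 hB
  have hc : Continuous (B.domRestrict φ) := continuousOn_iff_continuous_domRestrict.1 hφ
  have hi : Function.Injective (B.domRestrict φ) := Set.injOn_iff_injective.1 hinj
  have hemb := (hc.isClosedEmbedding hi).isEmbedding
  set e := hemb.toHomeomorph with he
  have hr : ∀ t, p t ∈ Set.range (B.domRestrict φ) := by
    intro t
    obtain ⟨b, hb, hbt⟩ := hpB t
    exact ⟨⟨b, hb⟩, hbt⟩
  refine ⟨fun t => (e.symm ⟨p t, hr t⟩ : B).1, ?_, fun t => (e.symm ⟨p t, hr t⟩ : B).2, ?_⟩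
  · exact continuous_subtype_val.comp (e.symm.continuous.comp (hp.subtype_mk hr))
  · intro t
    have h1 : e (e.symm ⟨p t, hr t⟩) = ⟨p t, hr t⟩ := e.apply_symm_apply _
    have h2 := congrArg Subtype.val h1
    exact h2

open scoped unitInterval in
theorem simplyConnectedSpace_of_exhaustion {V E : Type} [TopologicalSpace V] [T2Space V]
    [NormedAddCommGroup E] [NormedSpace ℝ E] {S : Set V} (hpc : IsPathConnected S)
    (h : ∀ K : Set V, IsCompact K → K ⊆ S → ∃ (B : Set E) (φ : E → V), Convex ℝ B ∧ IsCompact B ∧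
      ContinuousOn φ B ∧ Set.InjOn φ B ∧ Set.MapsTo φ B S ∧ K ⊆ φ '' B) :
    SimplyConnectedSpace S := by
  refine (isSimplyConnected_iff_exists_homotopy_refl_forall_mem.2 ⟨hpc, ?_⟩ : IsSimplyConnected S)
  intro x p hp
  obtain ⟨B, φ, hconv, hB, hφ, hinj, hmaps, hK⟩ := h (Set.range p) (isCompact_range p.continuous)
    (by rintro _ ⟨t, rfl⟩; exact hp t)
  obtain ⟨q, hq, hqB, hqp⟩ := tp_lift hB hφ hinj p.continuous (fun t => hK ⟨t, rfl⟩)
  have h0 : φ (q 0) = x := by rw [hqp, p.source]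
  have h1 : φ (q 1) = x := by rw [hqp, p.target]
  have h01 : q 1 = q 0 := hinj (hqB 1) (hqB 0) (h1.trans h0.symm)
  have hG : Continuous fun z : I × I => (1 - (z.1 : ℝ)) • q z.2 + (z.1 : ℝ) • q 0 := by
    fun_prop
  have hGB : ∀ z : I × I, (1 - (z.1 : ℝ)) • q z.2 + (z.1 : ℝ) • q 0 ∈ B := fun z =>
    hconv (hqB z.2) (hqB 0) (by linarith [z.1.2.2]) z.1.2.1 (by ring)
  refine ⟨{ toFun := fun z => φ ((1 - (z.1 : ℝ)) • q z.2 + (z.1 : ℝ) • q 0)
            continuous_toFun := hφ.comp_continuous hG hGB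
            map_zero_left := fun s => by simp [hqp]
            map_one_left := fun s => by simp [h0]
            prop' := ?_ }, fun z => hmaps (hGB z)⟩
  intro t s hs
  have e : ∀ c : ℝ, (1 - c) • q 0 + c • q 0 = q 0 := fun c => by
    rw [← add_smul]; simp
  rcases hs with rfl | hs
  · simp [e, h0]
  · rw [Set.mem_singleton_iff] at hs
    subst hs
    simp [h01, e, h0]

end topo

end Claimed.Agent.R316.SC
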